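import Vale.Agent.P101.Bridge.Main
import Vale.Agent.P101.Central
import Vale.Agent.P101.Faithful
import Vale.Agent.P101.Converse

/-!
Characters of the central sequence algebra against unital *-homomorphisms from the dimension drop
algebra.
-/

noncomputable section

open Filter Topology
open scoped BoundedContinuousFunction

namespace Vale.Agent.P101

universe u

variable {A : Type u} [CStarAlgebra A] {ω : Ultrafilter ℕ}

/-- Relations on representatives give relations in the central sequence algebra. -/
theorem comparison_of_central (h : CentralComparison ω A) : Comparison (CQ ω A) := by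
  obtain ⟨c, e, f, v, r, s, hc, he, hf, hv, hr, hs, h1, h2, h3, h4, h5, h6, h7⟩ := h
  refine ⟨proj ω ⟨c, hc⟩, proj ω ⟨e, he⟩, proj ω ⟨f, hf⟩, proj ω ⟨v, hv⟩, proj ω ⟨r, hr⟩,
    proj ω ⟨s, hs⟩, ?_⟩
  simp only [← map_star, ← map_mul, ← map_sub, ← map_one (proj ω (A := A)),
    ← map_zero (proj ω (A := A)), proj_eq_iff]
  exact ⟨h1, h2, by simpa using h3, h4, h5, h6, h7⟩

/-- A unital *-homomorphism from the dimension drop algebra into the central sequence algebra,
on representatives: it is unital, linear, multiplicative and star preserving up to null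
sequences. -/
structure CentralHom (ω : Ultrafilter ℕ) (A : Type u) [CStarAlgebra A] where
  val : MatFun → (ℕ →ᵇ A)
  central : ∀ g, InDimDrop g → IsCentral ω (val g)
  map_one : IsNull ω (val 1 - 1)
  map_add : ∀ g g', InDimDrop g → InDimDrop g' → IsNull ω (val (g + g') - (val g + val g'))
  map_mul : ∀ g g', InDimDrop g → InDimDrop g' → IsNull ω (val (g * g') - val g * val g')
  map_smul : ∀ (z : ℂ) g, InDimDrop g → IsNull ω (val (z • g) - z • val g)
  map_star : ∀ g, InDimDrop g → IsNull ω (val (star g) - star (val g))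

/-- Homomorphisms into the quotient and homomorphisms on representatives are the same thing. -/
theorem centralHom_iff : Nonempty (CentralHom ω A) ↔ Nonempty (DimDrop →⋆ₐ[ℂ] CQ ω A) := by
  classical
  constructor
  · rintro ⟨H⟩
    let Φ : DimDrop → CQ ω A := fun g => proj ω ⟨H.val g, H.central g g.2⟩
    have h1 : Φ 1 = 1 := by
      rw [← map_one (proj ω (A := A))]
      exact (proj_eq_iff ω _ _).2 H.map_one
    have hadd : ∀ g g', Φ (g + g') = Φ g + Φ g' := fun g g' => by
      rw [← map_add (proj ω (A := A))]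
      exact (proj_eq_iff ω _ _).2 (H.map_add g g' g.2 g'.2)
    refine ⟨{ toFun := Φ, map_one' := h1, map_mul' := fun g g' => ?_, map_zero' := ?_, map_add' := hadd, commutes' := fun z => ?_, map_star' := fun g => ?_ }⟩
    · rw [← map_mul (proj ω (A := A))]
      exact (proj_eq_iff ω _ _).2 (H.map_mul g g' g.2 g'.2)
    · simpa using hadd 0 0
    · have hz : Φ (z • 1) = z • Φ 1 := by
        rw [← map_smul (proj ω (A := A))]
        exact (proj_eq_iff ω _ _).2 (H.map_smul z _ (1 : DimDrop).2)
      rw [h1] at hz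
      rw [Algebra.algebraMap_eq_smul_one, Algebra.algebraMap_eq_smul_one]
      exact hz
    · rw [← map_star (proj ω (A := A))]
      exact (proj_eq_iff ω _ _).2 (H.map_star g g.2)
  · rintro ⟨ψ⟩
    choose r hr using proj_surjective ω (A := A)
    let v : MatFun → (ℕ →ᵇ A) := fun g =>
      if h : InDimDrop g then (r (ψ ⟨g, h⟩) : ℕ →ᵇ A) else 0
    have hv : ∀ g : DimDrop, v g = r (ψ g) := fun g => dif_pos g.2
    have key : ∀ (x : ↥(centralAlg ω A)) (g : DimDrop), proj ω x = ψ g →
        IsNull ω (v g - (x : ℕ →ᵇ A)) := fun x g h => by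
      rw [hv]
      exact (proj_eq_iff ω _ _).1 ((hr _).trans h.symm)
    refine ⟨⟨v, fun g hg => ?_, ?_, fun g g' hg hg' => ?_, fun g g' hg hg' => ?_,
      fun z g hg => ?_, fun g hg => ?_⟩⟩
    · rw [hv ⟨g, hg⟩]
      exact (r (ψ ⟨g, hg⟩)).2
    · exact key 1 1 (by rw [map_one, map_one])
    · have := key (r (ψ ⟨g, hg⟩) + r (ψ ⟨g', hg'⟩)) (⟨g, hg⟩ + ⟨g', hg'⟩) (by simp [hr])
      simpa [← hv] using this
    · have := key (r (ψ ⟨g, hg⟩) * r (ψ ⟨g', hg'⟩)) (⟨g, hg⟩ * ⟨g', hg'⟩) (by simp [hr])
      simpa [← hv] using this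
    · have := key (z • r (ψ ⟨g, hg⟩)) (z • ⟨g, hg⟩) (by simp [hr])
      simpa [← hv] using this
    · have := key (star (r (ψ ⟨g, hg⟩))) (star ⟨g, hg⟩) (by simp [map_star, hr])
      simpa [← hv] using this

/-- No characters on the central sequence algebra exactly when the dimension drop algebra maps
into it unitally, given the main theorem. -/
theorem noChar_iff_centralHom_of_final (hfinal : Final.{u}) (A : Type u) [CStarAlgebra A]
    [TopologicalSpace.SeparableSpace A] (ω : Ultrafilter ℕ) (hω : (ω : Filter ℕ) ≤ cofinite) :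
    IsEmpty (CentralChar ω A) ↔ Nonempty (CentralHom ω A) := by
  rw [centralHom_iff]
  constructor
  · intro h
    exact exists_dimDropHom (comparison_of_central (hfinal A ω hω h))
  · rintro ⟨ψ⟩
    exact ⟨fun χ => dimDrop_no_character.false ((hom_of_char χ).some.comp ψ)⟩

end Vale.Agent.P101
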