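import Mathlib

/-! The dimension drop algebra of two by two and three by three matrices, concretely. -/

noncomputable section

open scoped unitInterval

namespace Vale.Agent.P101

/-- The index set of the six by six matrices, a product of a pair and a triple. -/
abbrev Idx : Type := Fin 2 × Fin 3

/-- The six by six matrices of continuous functions on the unit interval, that is, the continuous
maps from the interval to `M₆`. -/
abbrev MatFun : Type := Matrix Idx Idx C(I, ℂ)

/-- The value at `0` has the form `a ⊗ 1` and the value at `1` the form `1 ⊗ b`. -/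
def InDimDrop (g : MatFun) : Prop :=
  (∃ a : Fin 2 → Fin 2 → ℂ, ∀ p q, g p q 0 = if p.2 = q.2 then a p.1 q.1 else 0) ∧
    ∃ b : Fin 3 → Fin 3 → ℂ, ∀ p q, g p q 1 = if p.1 = q.1 then b p.2 q.2 else 0

theorem InDimDrop.add {g g' : MatFun} (h : InDimDrop g) (h' : InDimDrop g') :
    InDimDrop (g + g') := by
  obtain ⟨⟨a, ha⟩, ⟨b, hb⟩⟩ := h
  obtain ⟨⟨a', ha'⟩, ⟨b', hb'⟩⟩ := h'
  refine ⟨⟨fun i j => a i j + a' i j, fun p q => ?_⟩, ⟨fun i j => b i j + b' i j, fun p q => ?_⟩⟩
  · rw [Matrix.add_apply, ContinuousMap.add_apply, ha, ha']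
    split_ifs <;> simp
  · rw [Matrix.add_apply, ContinuousMap.add_apply, hb, hb']
    split_ifs <;> simp

theorem InDimDrop.mul {g g' : MatFun} (h : InDimDrop g) (h' : InDimDrop g') :
    InDimDrop (g * g') := by
  obtain ⟨⟨a, ha⟩, ⟨b, hb⟩⟩ := h
  obtain ⟨⟨a', ha'⟩, ⟨b', hb'⟩⟩ := h'
  refine ⟨⟨fun i k => ∑ j, a i j * a' j k, fun p q => ?_⟩,
    ⟨fun i k => ∑ j, b i j * b' j k, fun p q => ?_⟩⟩
  · rw [Matrix.mul_apply, ContinuousMap.sum_apply, Fintype.sum_prod_type]
    simp only [ContinuousMap.mul_apply, ha, ha', ite_mul, zero_mul, Finset.sum_ite_eq,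
      Finset.mem_univ, if_true]
    split_ifs <;> simp
  · rw [Matrix.mul_apply, ContinuousMap.sum_apply, Fintype.sum_prod_type, Finset.sum_comm]
    simp only [ContinuousMap.mul_apply, hb, hb', ite_mul, zero_mul, Finset.sum_ite_eq,
      Finset.mem_univ, if_true]
    split_ifs <;> simp

theorem InDimDrop.star {g : MatFun} (h : InDimDrop g) : InDimDrop (star g) := by
  obtain ⟨⟨a, ha⟩, ⟨b, hb⟩⟩ := h
  refine ⟨⟨fun i j => Star.star (a j i), fun p q => ?_⟩, ⟨fun i j => Star.star (b j i), fun p q => ?_⟩⟩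
  · rw [Matrix.star_apply, ContinuousMap.star_apply, ha]
    by_cases hpq : p.2 = q.2 <;> simp [hpq, eq_comm]
  · rw [Matrix.star_apply, ContinuousMap.star_apply, hb]
    by_cases hpq : p.1 = q.1 <;> simp [hpq, eq_comm]

theorem inDimDrop_algebraMap (z : ℂ) : InDimDrop (algebraMap ℂ MatFun z) := by
  refine ⟨⟨fun i j => if i = j then z else 0, fun p q => ?_⟩,
    ⟨fun i j => if i = j then z else 0, fun p q => ?_⟩⟩ <;>
  · simp only [Algebra.algebraMap_eq_smul_one, Matrix.smul_apply, Matrix.one_apply, Prod.ext_iff]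
    by_cases h1 : p.1 = q.1 <;> by_cases h2 : p.2 = q.2 <;> simp [h1, h2]

/-- The dimension drop algebra `Z_{2,3}`. -/
def DimDrop : StarSubalgebra ℂ MatFun where
  carrier := {g | InDimDrop g}
  mul_mem' := InDimDrop.mul
  add_mem' := InDimDrop.add
  algebraMap_mem' := inDimDrop_algebraMap
  star_mem' := InDimDrop.star

instance instSemiringDimDrop : Semiring DimDrop := SubsemiringClass.toSemiring DimDrop

theorem mem_dimDrop {g : MatFun} : g ∈ DimDrop ↔ InDimDrop g := Iff.rfl

end Vale.Agent.P101
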