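import Vale.Agent.P101.Bridge.Endpoints
import Vale.Agent.P101.Bridge.DimDrop

/-!
The relations give a unital *-homomorphism from the concrete dimension drop algebra, and a
target of such a homomorphism has no characters.
-/

noncomputable section

open Filter Topology Finset
open scoped unitInterval

namespace Vale.Agent.P101.Bridge

/-- Matrices of functions on the interval. -/
abbrev MatC : Type := MatFun

instance instRingMatC : Ring MatC := Matrix.instRing

instance instStarRingMatC : StarRing MatC := Matrix.instStarRing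

instance instAlgebraMatC : Algebra ℂ MatC := Matrix.instAlgebra

instance instAlgebraFunMatC : Algebra C(I, ℂ) MatC := Matrix.instAlgebra

/-- The regrouping as a permutation. -/
def permEquiv : Equiv.Perm (Fin 2 × Fin 3) := ⟨perm, perm, perm_perm, perm_perm⟩

theorem permEquiv_apply (p : Fin 2 × Fin 3) : permEquiv p = perm p := rfl

/-- The permutation matrix of the regrouping. -/
def permMat : MatC := Matrix.of fun p q => if perm p = q then 1 else 0

/-- The phase. -/
def phase : C(I, ℂ) :=
  ⟨fun t => Complex.exp (((Real.pi * (t : ℝ) : ℝ) : ℂ) * Complex.I),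
    Complex.continuous_exp.comp ((Complex.continuous_ofReal.comp
      (continuous_const.mul continuous_subtype_val)).mul continuous_const)⟩

theorem star_phase_mul : star phase * phase = 1 := by
  ext t
  simp only [phase, ContinuousMap.mul_apply, ContinuousMap.star_apply, ContinuousMap.coe_mk,
    ContinuousMap.one_apply, Complex.star_def, ← Complex.exp_conj, ← Complex.exp_add]
  simp

/-- The diagonal coefficient of the path. -/
def coefA : C(I, ℂ) := (1 / 2 : ℂ) • (1 + phase)

/-- The off diagonal coefficient of the path. -/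
def coefB : C(I, ℂ) := (1 / 2 : ℂ) • (1 - phase)

/-- The unitary path from the identity to the regrouping. -/
def rot : MatC := coefA • 1 + coefB • permMat

theorem permMat_sq : permMat * permMat = 1 := by
  ext p q : 2
  rw [Matrix.mul_apply, Finset.sum_eq_single (perm p)]
  · simp [permMat, perm_perm, Matrix.one_apply]
  · intro r _ hr
    simp [permMat, Ne.symm hr]
  · simp

theorem star_permMat : star permMat = permMat := by
  ext p q : 2
  simp only [Matrix.star_apply, permMat, Matrix.of_apply]
  by_cases h : perm p = q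
  · subst h
    simp [perm_perm]
  · rw [if_neg h, if_neg (fun h' => h (by rw [← h', perm_perm])), star_zero]

theorem coef_sq : star coefA * coefA + star coefB * coefB = 1 := by
  have h : (starRingEnd ℂ) (1 / 2 : ℂ) = 1 / 2 := by simp [map_ofNat]
  ext t
  have e := congrArg (fun F : C(I, ℂ) => F t) star_phase_mul
  simp only [ContinuousMap.mul_apply, ContinuousMap.star_apply, ContinuousMap.one_apply,
    Complex.star_def] at e
  simp only [coefA, coefB, ContinuousMap.add_apply, ContinuousMap.mul_apply,
    ContinuousMap.star_apply, ContinuousMap.smul_apply, ContinuousMap.one_apply,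
    ContinuousMap.sub_apply, Complex.star_def, smul_eq_mul, map_mul, map_add, map_sub, map_one, h]
  linear_combination (1 / 2 : ℂ) * e

theorem coef_cross : star coefA * coefB + star coefB * coefA = 0 := by
  have h : (starRingEnd ℂ) (1 / 2 : ℂ) = 1 / 2 := by simp [map_ofNat]
  ext t
  have e := congrArg (fun F : C(I, ℂ) => F t) star_phase_mul
  simp only [ContinuousMap.mul_apply, ContinuousMap.star_apply, ContinuousMap.one_apply,
    Complex.star_def] at e
  simp only [coefA, coefB, ContinuousMap.add_apply, ContinuousMap.mul_apply,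
    ContinuousMap.star_apply, ContinuousMap.smul_apply, ContinuousMap.one_apply,
    ContinuousMap.sub_apply, ContinuousMap.zero_apply, Complex.star_def, smul_eq_mul, map_mul,
    map_add, map_sub, map_one, h]
  linear_combination -(1 / 2 : ℂ) * e

theorem star_rot_mul : star rot * rot = 1 := by
  have e : star rot = star coefA • 1 + star coefB • permMat := by
    ext p q : 2
    have := congrFun (congrFun star_permMat p) q
    simp only [Matrix.star_apply] at this
    simp [rot, Matrix.star_apply, this, Matrix.one_apply, eq_comm (a := q), apply_ite]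
  rw [e, rot]
  have sm : ∀ (x y : C(I, ℂ)) (A B : MatC), (x • A) * (y • B) = (x * y) • (A * B) := fun x y A B => by
    ext p q t
    simp only [Matrix.mul_apply, Matrix.smul_apply, smul_eq_mul, ContinuousMap.sum_apply,
      ContinuousMap.mul_apply, mul_sum]
    exact sum_congr rfl fun r _ => by ring
  simp only [add_mul, mul_add, sm, one_mul, mul_one, permMat_sq]
  ext p q t
  have h1 := congrArg (fun F : C(I, ℂ) => F t) coef_sq
  have h2 := congrArg (fun F : C(I, ℂ) => F t) coef_cross
  simp only [ContinuousMap.add_apply, ContinuousMap.mul_apply, ContinuousMap.one_apply,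
    ContinuousMap.zero_apply] at h1 h2
  simp only [Matrix.add_apply, Matrix.smul_apply, smul_eq_mul, ContinuousMap.add_apply,
    ContinuousMap.mul_apply]
  linear_combination ((1 : MatC) p q t) * h1 + (permMat p q t) * h2

theorem rot_mul_star : rot * star rot = 1 := mul_eq_one_comm.1 star_rot_mul

theorem rot_apply_zero (p q : Fin 2 × Fin 3) : rot p q 0 = if p = q then 1 else 0 := by
  have hA : coefA 0 = 1 := by simp [coefA, phase]; norm_num
  have hB : coefB 0 = 0 := by simp [coefB, phase]
  by_cases h : p = q <;> simp [rot, hA, hB, h]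

theorem rot_apply_one (p q : Fin 2 × Fin 3) : rot p q 1 = if perm p = q then 1 else 0 := by
  have hA : coefA 1 = 0 := by simp [coefA, phase]
  have hB : coefB 1 = 1 := by simp [coefB, phase]; norm_num
  by_cases h : perm p = q <;> simp [rot, hA, hB, h, permMat]

/-- The coordinates in which the rows live. -/
def coords : MatC →⋆ₐ[ℂ] MatC where
  toFun g := rot * g * star rot
  map_one' := by rw [mul_one, rot_mul_star]
  map_mul' g g' := by
    calc rot * (g * g') * star rot
        = rot * g * (star rot * rot) * g' * star rot := by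
          rw [star_rot_mul, mul_one]; simp only [mul_assoc]
      _ = _ := by simp only [mul_assoc]
  map_zero' := by simp
  map_add' g g' := by rw [mul_add, add_mul]
  commutes' z := by
    rw [Algebra.algebraMap_eq_smul_one, mul_smul_comm, mul_one, smul_mul_assoc, rot_mul_star]
  map_star' g := by simp [mul_assoc]

theorem coords_apply_zero (g : MatC) (p q : Fin 2 × Fin 3) : coords g p q 0 = g p q 0 := by
  show (rot * g * star rot) p q 0 = _
  simp [Matrix.mul_apply, rot_apply_zero]

theorem coords_apply_one (g : MatC) (p q : Fin 2 × Fin 3) :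
    coords g p q 1 = g (perm p) (perm q) 1 := by
  show (rot * g * star rot) p q 1 = _
  simp [Matrix.mul_apply, rot_apply_one]

/-- The two endpoint matrices of a matrix of functions. -/
structure Ends (M : MatC) (a : Matrix (Fin 2) (Fin 2) ℂ) (b : Matrix (Fin 3) (Fin 3) ℂ) : Prop where
  zero : ∀ p q, M p q 0 = if p.2 = q.2 then a p.1 q.1 else 0
  one : ∀ p q, M (perm p) (perm q) 1 = if p.1 = q.1 then b p.2 q.2 else 0

variable {D : Type*} [CStarAlgebra D] (P : Rel D)

namespace Rel

/-- The value at the left endpoint. -/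
def left (a : Matrix (Fin 2) (Fin 2) ℂ) : D := ∑ i, ∑ j, a i j • P.phi i j

/-- The value at the right endpoint. -/
def right (b : Matrix (Fin 3) (Fin 3) ℂ) : D := ∑ k, ∑ l, b k l • (P.u k * star (P.u l))

/-- The interior value. -/
def mid (M : MatC) : D := ∑ p, ∑ q, P.ev (M p q) * P.N p q

/-- The element attached to a matrix of functions with endpoint data. -/
structure Sol (M : MatC) (a : Matrix (Fin 2) (Fin 2) ℂ) (b : Matrix (Fin 3) (Fin 3) ℂ) (y : D) :
    Prop where
  comm : Commute P.T y
  weight : y * P.ev wI = P.mid M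
  van0 : P.Van (1 - tI) (y - P.left a)
  van1 : P.Van tI (y - P.right b)

theorem comm_T_left (a : Matrix (Fin 2) (Fin 2) ℂ) : Commute P.T (P.left a) :=
  Commute.sum_right _ _ _ fun i _ => Commute.sum_right _ _ _ fun j _ =>
    (P.comm_T_phi i j).smul_right _

theorem comm_T_uu (k l : Fin 3) : Commute P.T (P.u k * star (P.u l)) :=
  (P.comm_T_u k).mul_right (P.comm_star (P.comm_T_u l))

theorem comm_T_right (b : Matrix (Fin 3) (Fin 3) ℂ) : Commute P.T (P.right b) :=
  Commute.sum_right _ _ _ fun k _ => Commute.sum_right _ _ _ fun l _ =>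
    (P.comm_T_uu k l).smul_right _

theorem mid_add (M M' : MatC) : P.mid (M + M') = P.mid M + P.mid M' := by
  simp [mid, Matrix.add_apply, map_add, add_mul, sum_add_distrib]

theorem mid_smul (z : ℂ) (M : MatC) : P.mid (z • M) = z • P.mid M := by
  simp [mid, Matrix.smul_apply, map_smul, smul_sum]

theorem mid_one : P.mid 1 = P.ev wI := by
  simp [mid, Matrix.one_apply, apply_ite, ← P.sum_N]

theorem star_mid (M : MatC) : star (P.mid M) = P.mid (star M) := by
  rw [mid, mid, star_sum]
  simp only [star_sum]
  rw [Finset.sum_comm]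
  refine sum_congr rfl fun p _ => sum_congr rfl fun q _ => ?_
  rw [star_mul, star_N, ← map_star, Matrix.star_apply]
  exact ((P.comm_ev (P.comm_T_N p q) _).eq).symm

theorem mid_mul_N (M : MatC) (p q : Fin 2 × Fin 3) :
    P.mid M * P.N p q = ∑ r, P.ev (wI * M r p) * P.N r q := by
  simp only [mid, sum_mul]
  refine sum_congr rfl fun r _ => ?_
  simp [mul_assoc, N_mul, apply_ite]
  rw [← mul_assoc, (P.comm_ev_ev _ _).eq, mul_assoc]

theorem van0_mid (M : MatC) : P.Van (1 - tI) (P.mid M) :=
  van_sum _ fun p _ => van_sum _ fun q _ => (P.van0_N p q).mul_left _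

theorem van1_mid (M : MatC) : P.Van tI (P.mid M) :=
  van_sum _ fun p _ => van_sum _ fun q _ => (P.van1_N p q).mul_left _

theorem comm_T_mid (M : MatC) : Commute P.T (P.mid M) :=
  Commute.sum_right _ _ _ fun p _ => Commute.sum_right _ _ _ fun q _ =>
    (P.comm_ev (Commute.refl P.T) _).symm.mul_right (P.comm_T_N p q)

theorem phi_phi (a b c d : Fin 2) :
    P.phi a b * P.phi c d = if b = c then P.h * P.phi a d else 0 := by
  have h1 : star P.c * star P.c = 0 := by rw [← star_mul, P.cc, star_zero]
  fin_cases a <;> fin_cases b <;> fin_cases c <;> fin_cases d <;>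
    simp [phi, P.ee, P.ff, P.ef, P.fe, P.fc, P.ce, P.cc, P.cc', P.c'c, P.ec, P.cf, P.c'e, P.c'f,
      P.fc', P.ec', h1]

theorem left_mul (a a' : Matrix (Fin 2) (Fin 2) ℂ) :
    P.left a * P.left a' = P.h * P.left (a * a') := by
  simp only [left, Fin.sum_univ_two, Matrix.mul_apply, add_mul, mul_add, smul_mul_assoc,
    mul_smul_comm, phi_phi]
  simp
  module

theorem star_u_u (l m : Fin 3) :
    star (P.u l) * P.u m = if l = m then ![P.X, P.X, P.X * P.X] l else 0 := by
  have hgX : ∀ i : Fin 2, star (P.g i * P.v) * P.X = 0 := fun i => by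
    simpa [P.star_X] using congrArg star (P.X_gv i)
  fin_cases l <;> fin_cases m <;> simp [u, -star_mul, P.gv_gv, hgX, P.X_gv, P.star_X]

theorem van1_u (k : Fin 3) (l : Fin 3) :
    P.Van tI (P.u k * ![P.X, P.X, P.X * P.X] l - P.u k) := by
  have h1 : P.u k * (1 - P.X) = (1 - P.T) * P.u k := by
    have hgv : ∀ i : Fin 2, P.g i * P.v * P.X = P.T * (P.g i * P.v) := fun i => by
      rw [mul_assoc, ← P.Tv, ← mul_assoc, ← (P.comm_T_g i).eq, mul_assoc]
    fin_cases k <;> simp [u, mul_sub, sub_mul, hgv, ← P.TX]
  have h2 : P.Van tI (P.u k * (1 - P.X)) := by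
    rw [h1]
    exact P.van1_one_sub_T.mul_right (P.comm_T_u k)
  have e : ∀ x : D, P.u k * x - P.u k = -(P.u k * (1 - x)) := fun x => by
    rw [mul_sub, mul_one, neg_sub]
  fin_cases l <;> simp only [Fin.zero_eta, Fin.mk_one, Fin.reduceFinMk, Matrix.cons_val_zero,
    Matrix.cons_val_one, Matrix.cons_val_two, Matrix.tail_cons, Matrix.head_cons, e]
  · exact h2.neg
  · exact h2.neg
  · rw [show 1 - P.X * P.X = (1 - P.X) * (1 + P.X) by noncomm_ring, ← mul_assoc]
    exact (h2.mul_right ((Commute.one_right _).add_right P.comm_TX)).neg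

theorem van1_right_mul (b b' : Matrix (Fin 3) (Fin 3) ℂ) :
    P.Van tI (P.right b * P.right b' - P.right (b * b')) := by
  have huu : ∀ k l m n, P.u k * star (P.u l) * (P.u m * star (P.u n)) =
      if l = m then P.u k * ![P.X, P.X, P.X * P.X] l * star (P.u n) else 0 := fun k l m n => by
    rw [mul_assoc, ← mul_assoc (star (P.u l)), star_u_u]
    split_ifs <;> simp [mul_assoc]
  have e : P.right b * P.right b' - P.right (b * b') = ∑ k, ∑ n, ∑ l,
      (b k l * b' l n) • ((P.u k * ![P.X, P.X, P.X * P.X] l - P.u k) * star (P.u n)) := by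
    simp [right, Fin.sum_univ_three, Matrix.mul_apply, add_mul, mul_add, huu, sub_mul]
    module
  rw [e]
  exact van_sum _ fun k _ => van_sum _ fun n _ => van_sum _ fun l _ =>
    ((P.van1_u k l).mul_right (P.comm_star (P.comm_T_u n))).smul _

variable {P}
variable {M M' : MatC} {a a' : Matrix (Fin 2) (Fin 2) ℂ} {b b' : Matrix (Fin 3) (Fin 3) ℂ} {y y' : D}

theorem Sol.unique (h : P.Sol M a b y) (h' : P.Sol M a b y') : y = y' := by
  refine sub_eq_zero.1 (P.eq_zero_of_van ?_ ?_ ?_)
  · rw [sub_mul, h.weight, h'.weight, sub_self]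
  · simpa using h.van0.sub h'.van0
  · simpa using h.van1.sub h'.van1

theorem Sol.add (h : P.Sol M a b y) (h' : P.Sol M' a' b' y') :
    P.Sol (M + M') (a + a') (b + b') (y + y') := by
  refine ⟨h.comm.add_right h'.comm, ?_, ?_, ?_⟩
  · rw [add_mul, h.weight, h'.weight, mid_add]
  · have := h.van0.add h'.van0
    simpa [left, add_smul, sum_add_distrib, add_sub_add_comm] using this
  · have := h.van1.add h'.van1
    simpa [right, add_smul, sum_add_distrib, add_sub_add_comm] using this

theorem Sol.smul (h : P.Sol M a b y) (z : ℂ) : P.Sol (z • M) (z • a) (z • b) (z • y) := by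
  refine ⟨h.comm.smul_right z, ?_, ?_, ?_⟩
  · rw [smul_mul_assoc, h.weight, mid_smul]
  · have := h.van0.smul z
    simpa [left, smul_sum, smul_smul, smul_sub] using this
  · have := h.van1.smul z
    simpa [right, smul_sum, smul_smul, smul_sub] using this

variable (P) in
theorem sol_one : P.Sol 1 1 1 1 := by
  refine ⟨Commute.one_right _, ?_, ?_, ?_⟩
  · rw [one_mul, mid_one]
  · have e : (1 : D) - P.left 1 = P.X := by
      simp [left, Fin.sum_univ_two, phi, Matrix.one_apply, X_eq, Rel.h]
    rw [e]
    exact P.van0_X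
  · have e : (1 : D) - P.right 1 = (1 - P.T) + (1 - P.T) * P.X := by
      rw [sub_mul, one_mul, P.TX]
      simp [right, Fin.sum_univ_three, u, g, Matrix.one_apply, T, P.star_X]
      abel
    rw [e]
    exact P.van1_one_sub_T.add (P.van1_one_sub_T.mul_right P.comm_TX)

theorem Sol.star' (h : P.Sol M a b y) : P.Sol (star M) (star a) (star b) (star y) := by
  refine ⟨P.comm_star h.comm, ?_, ?_, ?_⟩
  · rw [← star_mid, ← h.weight, star_mul, ← map_star, star_wI,
      (P.comm_ev (P.comm_star h.comm) wI).eq]
  · have e : star y - P.left (star a) = star (y - P.left a) := by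
      simp [left, Fin.sum_univ_two, Matrix.star_apply, phi, P.star_e, P.star_f]
      abel
    rw [e]
    exact h.van0.star' (h.comm.sub_right (P.comm_T_left a)) (by simp [star_tI])
  · have e : star y - P.right (star b) = star (y - P.right b) := by
      simp [right, Matrix.star_apply, star_sum]
      rw [Finset.sum_comm]
    rw [e]
    exact h.van1.star' (h.comm.sub_right (P.comm_T_right b)) star_tI

theorem Sol.mul (h : P.Sol M a b y) (h' : P.Sol M' a' b' y') :
    P.Sol (M * M') (a * a') (b * b') (y * y') := by
  refine ⟨h.comm.mul_right h'.comm, ?_, ?_, ?_⟩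
  · refine sub_eq_zero.1 (P.eq_zero_of_van ?_ ?_ ?_)
    · rw [sub_mul, sub_eq_zero, mul_assoc y, h'.weight, mul_assoc, ← (P.comm_ev (P.comm_T_mid M') wI).eq,
        ← mul_assoc, h.weight, ← (P.comm_ev (P.comm_T_mid (M * M')) wI).eq]
      calc P.mid M * P.mid M' = ∑ p, ∑ q, P.ev (M' p q) * (∑ r, P.ev (wI * M r p) * P.N r q) := by
            conv_lhs => rw [show P.mid M' = ∑ p, ∑ q, P.ev (M' p q) * P.N p q from rfl]
            simp only [mul_sum, ← mul_assoc, ← (P.comm_ev (P.comm_T_mid M) _).eq]
            simp only [mul_assoc, mid_mul_N, mul_sum]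
        _ = P.ev wI * P.mid (M * M') := by
            simp only [mid, mul_sum, Matrix.mul_apply, map_sum, sum_mul, ← mul_assoc, ← map_mul]
            conv_lhs =>
              enter [2, p]
              rw [Finset.sum_comm]
            rw [Finset.sum_comm]
            refine sum_congr rfl fun r _ => ?_
            rw [Finset.sum_comm]
            exact sum_congr rfl fun q _ => sum_congr rfl fun p _ => by congr 2; ring
    · have hh : P.Van (1 - tI) (y' * P.ev wI) := h'.weight ▸ P.van0_mid M'
      have h3 := hh.mul_left y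
      rw [← mul_assoc] at h3
      exact h3.sub (P.van0_mid _)
    · have hh : P.Van tI (y' * P.ev wI) := h'.weight ▸ P.van1_mid M'
      have h3 := hh.mul_left y
      rw [← mul_assoc] at h3
      exact h3.sub (P.van1_mid _)
  · have e : y * y' - P.left (a * a') = (y - P.left a) * y' + P.left a * (y' - P.left a') -
        P.X * P.left (a * a') := by
      rw [mul_sub, left_mul, sub_mul, X_eq, sub_mul, one_mul]
      abel
    rw [e]
    exact ((h.van0.mul_right h'.comm).add (h'.van0.mul_left _)).sub
      (P.van0_X.mul_right (P.comm_T_left _))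
  · have e : y * y' - P.right (b * b') = (y - P.right b) * y' + P.right b * (y' - P.right b') +
        (P.right b * P.right b' - P.right (b * b')) := by
      rw [mul_sub, sub_mul]; abel
    rw [e]
    exact ((h.van1.mul_right h'.comm).add (h'.van1.mul_left _)).add (P.van1_right_mul b b')

variable (P)

/-- The model of the left endpoint. -/
def modelLeft (a : Matrix (Fin 2) (Fin 2) ℂ) : MatC := Matrix.of fun p q =>
  if p.2 = q.2 then a p.1 q.1 • ((1 - tI) * rho p.2) else 0

/-- The model of the right endpoint. -/
def modelRight (b : Matrix (Fin 3) (Fin 3) ℂ) : MatC := Matrix.of fun p q =>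
  if (perm p).1 = (perm q).1 then
    b (perm p).2 (perm q).2 • (tI * (chi (perm q).2 * psi (perm p).2)) else 0

theorem left_mid (a : Matrix (Fin 2) (Fin 2) ℂ) :
    (1 - P.T) * P.left a * P.ev wI = P.mid (modelLeft a) := by
  have key : P.left a * P.ev wI =
      ∑ p : Fin 2 × Fin 3, ∑ q : Fin 2 × Fin 3, if p.2 = q.2 then
        a p.1 q.1 • (P.ev (rho p.2) * P.N p q) else 0 := by
    rw [← sum_N, mul_sum, Finset.sum_comm]
    refine sum_congr rfl fun q _ => ?_
    simp only [left, sum_mul, smul_mul_assoc, N, ← mul_assoc, phi_B, smul_ite,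
      smul_zero, Finset.sum_ite_eq, mem_univ, if_true, Fintype.sum_prod_type, Finset.sum_ite_eq']
  rw [mul_assoc, key, mul_sum, mid]
  refine sum_congr rfl fun p _ => ?_
  rw [mul_sum]
  refine sum_congr rfl fun q _ => ?_
  simp only [modelLeft, Matrix.of_apply]
  split_ifs
  · rw [map_smul, map_mul, map_sub, map_one, ev_tI, smul_mul_assoc, mul_smul_comm, mul_assoc]
  · simp

theorem right_mid (b : Matrix (Fin 3) (Fin 3) ℂ) :
    P.T * P.right b * P.ev wI = P.mid (modelRight b) := by
  have key : P.right b * P.ev wI =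
      ∑ p : Fin 2 × Fin 3, ∑ q : Fin 2 × Fin 3, if p.1 = q.1 then
        b p.2 q.2 • (P.ev (chi q.2 * psi p.2) * (P.Bk p.2 p.1 * star (P.Bk q.2 q.1))) else 0 := by
    rw [← sum_N, ← Equiv.sum_comp permEquiv, mul_sum, Finset.sum_comm]
    refine sum_congr rfl fun q _ => ?_
    simp only [permEquiv_apply, N, B, perm_perm, right, sum_mul, smul_mul_assoc]
    simp only [← mul_assoc, u_Bk, ite_mul, zero_mul, smul_ite, smul_zero, Finset.sum_ite_eq',
      mem_univ, if_true, Fintype.sum_prod_type]
    rw [Finset.sum_comm]
    simp only [Finset.sum_ite_eq', mem_univ, if_true]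
  rw [mul_assoc, key, mul_sum, mid]
  refine Fintype.sum_equiv permEquiv _ _ fun p => ?_
  rw [mul_sum]
  refine Fintype.sum_equiv permEquiv _ _ fun q => ?_
  show _ = P.ev (modelRight b (perm p) (perm q)) * P.N (perm p) (perm q)
  simp only [modelRight, Matrix.of_apply, N, B, perm_perm]
  split_ifs
  · rw [map_smul, map_mul P.ev tI, ev_tI, smul_mul_assoc, mul_smul_comm, mul_assoc]
  · rw [mul_zero, map_zero, zero_mul]

theorem exists_sol (h : Ends M a b) : ∃ y, P.Sol M a b y := by
  set K : MatC := M - modelLeft a - modelRight b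
  have hK : ∀ p q, K p q 0 = 0 ∧ K p q 1 = 0 := by
    intro p q
    have e1 := h.one (perm p) (perm q)
    rw [perm_perm, perm_perm] at e1
    constructor
    · simp only [K, Matrix.sub_apply, ContinuousMap.sub_apply, h.zero, modelLeft, modelRight, Matrix.of_apply]
      split_ifs <;> (obtain ⟨i, j⟩ := p; fin_cases j <;> simp [rho, tI])
    · simp only [K, Matrix.sub_apply, ContinuousMap.sub_apply, e1, modelLeft, modelRight, Matrix.of_apply]
      generalize perm p = p', perm q = q'
      obtain ⟨i, k⟩ := p'
      obtain ⟨j, l⟩ := q'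
      split_ifs <;> fin_cases k <;> fin_cases l <;> simp [chi, psi, tI, sqI]
  choose z hzc hzw hz0 hz1 using fun p q => P.exists_interior (hK p q).1 (hK p q).2 p q
  refine ⟨(1 - P.T) * P.left a + P.T * P.right b + ∑ p, ∑ q, z p q, ?_, ?_, ?_, ?_⟩
  · exact ((((Commute.one_right _).sub_right (Commute.refl _)).mul_right (P.comm_T_left a)).add_right
      ((Commute.refl _).mul_right (P.comm_T_right b))).add_right
      (Commute.sum_right _ _ _ fun p _ => Commute.sum_right _ _ _ fun q _ => hzc p q)
  · rw [add_mul, add_mul, left_mid, right_mid, sum_mul]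
    simp only [sum_mul, hzw]
    rw [show (∑ p, ∑ q, P.ev (K p q) * P.N p q) = P.mid K from rfl, ← mid_add, ← mid_add]
    congr 1
    simp only [K]
    abel
  · have e : (1 - P.T) * P.left a + P.T * P.right b + (∑ p, ∑ q, z p q) - P.left a =
        P.T * (P.right b - P.left a) + ∑ p, ∑ q, z p q := by
      rw [sub_mul, one_mul, mul_sub]; abel
    rw [e]
    exact (P.van0_T.mul_right ((P.comm_T_right b).sub_right (P.comm_T_left a))).add
      (van_sum _ fun p _ => van_sum _ fun q _ => hz0 p q)
  · have e : (1 - P.T) * P.left a + P.T * P.right b + (∑ p, ∑ q, z p q) - P.right b =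
        (1 - P.T) * (P.left a - P.right b) + ∑ p, ∑ q, z p q := by
      rw [mul_sub, sub_mul, sub_mul, one_mul, one_mul]; abel
    rw [e]
    exact (P.van1_one_sub_T.mul_right ((P.comm_T_left a).sub_right (P.comm_T_right b))).add
      (van_sum _ fun p _ => van_sum _ fun q _ => hz1 p q)

/-- The left endpoint value. -/
def endLeft (g : DimDrop) : Matrix (Fin 2) (Fin 2) ℂ := fun i j => (g : MatFun) (i, 0) (j, 0) 0

/-- The right endpoint value. -/
def endRight (g : DimDrop) : Matrix (Fin 3) (Fin 3) ℂ := fun k l => (g : MatFun) (0, k) (0, l) 1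

theorem ends (g : DimDrop) : Ends (coords g) (endLeft g) (endRight g) := by
  obtain ⟨⟨a, ha⟩, ⟨b, hb⟩⟩ := mem_dimDrop.1 g.2
  constructor
  · intro p q
    rw [coords_apply_zero, ha]
    simp [endLeft, ha]
  · intro p q
    rw [coords_apply_one, perm_perm, perm_perm, hb]
    simp [endRight, hb]

theorem endLeft_mul (g g' : DimDrop) : endLeft (g * g') = endLeft g * endLeft g' := by
  obtain ⟨⟨a, ha⟩, -⟩ := mem_dimDrop.1 g.2
  ext i j
  simp [endLeft, Matrix.mul_apply, Fintype.sum_prod_type, ha]

theorem endRight_mul (g g' : DimDrop) : endRight (g * g') = endRight g * endRight g' := by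
  obtain ⟨-, ⟨b, hb⟩⟩ := mem_dimDrop.1 g.2
  ext i j
  simp [endRight, Matrix.mul_apply, Fintype.sum_prod_type, hb]

theorem endLeft_algebraMap (z : ℂ) : endLeft (algebraMap ℂ DimDrop z) = z • 1 := by
  ext i j
  by_cases h : i = j <;>
    simp [endLeft, Algebra.algebraMap_eq_smul_one, Prod.ext_iff, h]

theorem endRight_algebraMap (z : ℂ) : endRight (algebraMap ℂ DimDrop z) = z • 1 := by
  ext i j
  by_cases h : i = j <;>
    simp [endRight, Algebra.algebraMap_eq_smul_one, Prod.ext_iff, h]

/-- The value of the homomorphism. -/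
def value (g : DimDrop) : D := (P.exists_sol (ends g)).choose

theorem sol_value (g : DimDrop) : P.Sol (coords g) (endLeft g) (endRight g) (P.value g) :=
  (P.exists_sol (ends g)).choose_spec

theorem value_algebraMap (z : ℂ) : P.value (algebraMap ℂ DimDrop z) = algebraMap ℂ D z := by
  refine (P.sol_value _).unique ?_
  have h := (sol_one P).smul z
  rw [endLeft_algebraMap, endRight_algebraMap,
    show coords ((algebraMap ℂ DimDrop z : DimDrop) : MatFun) = z • 1 by
      rw [← Algebra.algebraMap_eq_smul_one]; exact AlgHomClass.commutes coords z,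
    Algebra.algebraMap_eq_smul_one (A := D)]
  exact h

/-- The homomorphism from the dimension drop algebra. -/
def hom : DimDrop →⋆ₐ[ℂ] D where
  toFun := P.value
  map_one' := by simpa using P.value_algebraMap 1
  map_zero' := by simpa using P.value_algebraMap 0
  map_mul' g g' := by
    refine (P.sol_value _).unique ?_
    rw [endLeft_mul, endRight_mul, MulMemClass.coe_mul, map_mul]
    exact (P.sol_value g).mul (P.sol_value g')
  map_add' g g' := by
    refine (P.sol_value _).unique ?_
    rw [AddMemClass.coe_add, map_add]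
    exact (P.sol_value g).add (P.sol_value g')
  commutes' := P.value_algebraMap
  map_star' g := by
    refine (P.sol_value _).unique ?_
    rw [StarMemClass.coe_star, map_star]
    exact (P.sol_value g).star'

end Rel

end Vale.Agent.P101.Bridge

namespace Vale.Agent.P101

/-- The relations give a unital *-homomorphism from the dimension drop algebra. -/
theorem exists_dimDropHom {D : Type*} [CStarAlgebra D] (h : Comparison D) :
    Nonempty (DimDrop →⋆ₐ[ℂ] D) := by
  obtain ⟨c, e, f, v, r, s, hr, hs, cc, cc', c'c, vv, ev⟩ := h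
  exact ⟨(⟨c, e, f, v, r, s, hr, hs, cc, cc', c'c, vv, ev⟩ : Bridge.Rel D).hom⟩

end Vale.Agent.P101

namespace Vale.Agent.P101

open scoped unitInterval

/-- A weighted constant matrix. -/
def weighted (w : C(I, ℂ)) (m : Matrix Idx Idx ℂ) : MatFun := Matrix.of fun p q => m p q • w

/-- A matrix unit of the first factor. -/
def unitLeft : Matrix Idx Idx ℂ :=
  Matrix.of fun p q => if p.1 = 0 ∧ q.1 = 1 ∧ p.2 = q.2 then 1 else 0

/-- A matrix unit of the second factor. -/
def unitRight (k : Fin 2) : Matrix Idx Idx ℂ :=
  Matrix.of fun p q => if p.2 = k.castSucc ∧ q.2 = k.succ ∧ p.1 = q.1 then 1 else 0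

theorem unit_relations : unitLeft * unitLeft = 0 ∧ (∀ k, unitRight k * unitRight k = 0) ∧
    star unitLeft * unitLeft + unitLeft * star unitLeft = 1 ∧
    unitRight 0 * star (unitRight 0) + unitRight 1 * star (unitRight 1) +
      star (unitRight 1) * unitRight 1 = 1 := by
  refine ⟨?_, fun k => ?_, ?_, ?_⟩
  all_goals
    ext ⟨i, j⟩ ⟨i', j'⟩
    simp only [Matrix.mul_apply, Matrix.star_apply, Matrix.add_apply, Matrix.one_apply,
      Matrix.zero_apply, unitLeft, unitRight, Matrix.of_apply, Fintype.sum_prod_type,
      Fin.sum_univ_two, Fin.sum_univ_three]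
    fin_cases i <;> fin_cases j <;> fin_cases i' <;> fin_cases j' <;> try fin_cases k
  all_goals simp

theorem weighted_mul (w w' : C(I, ℂ)) (m m' : Matrix Idx Idx ℂ) :
    weighted w m * weighted w' m' = weighted (w * w') (m * m') := by
  ext p q t
  simp only [weighted, Matrix.mul_apply, Matrix.of_apply, ContinuousMap.sum_apply,
    ContinuousMap.mul_apply, ContinuousMap.smul_apply, smul_eq_mul, Finset.sum_mul]
  exact Finset.sum_congr rfl fun r _ => by ring

theorem star_weighted (w : C(I, ℂ)) (m : Matrix Idx Idx ℂ) :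
    star (weighted w m) = weighted (star w) (star m) := by
  ext p q t
  simp [weighted, Matrix.star_apply]

/-- The dimension drop algebra has no characters. -/
theorem dimDrop_no_character : IsEmpty (DimDrop →⋆ₐ[ℂ] ℂ) := by
  obtain ⟨hL, hR, hL', hR'⟩ := unit_relations
  set wL : C(I, ℂ) := ⟨fun t => ((Real.sqrt (1 - (t : ℝ)) : ℝ) : ℂ),
    Complex.continuous_ofReal.comp (Real.continuous_sqrt.comp
      (continuous_const.sub continuous_subtype_val))⟩
  set wR : C(I, ℂ) := Bridge.sqI
  have hx : weighted wL unitLeft ∈ DimDrop := by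
    refine ⟨⟨fun i j => if i = 0 ∧ j = 1 then 1 else 0, fun p q => ?_⟩, ⟨fun _ _ => 0, fun p q => ?_⟩⟩
    · by_cases h : p.2 = q.2 <;> by_cases h' : p.1 = 0 ∧ q.1 = 1 <;>
        simp [weighted, wL, unitLeft, h, h']
    · simp [weighted, wL]
  have hy : ∀ k, weighted wR (unitRight k) ∈ DimDrop := fun k => by
    refine ⟨⟨fun _ _ => 0, fun p q => ?_⟩,
      ⟨fun i j => if i = k.castSucc ∧ j = k.succ then 1 else 0, fun p q => ?_⟩⟩
    · simp [weighted, wR, Bridge.sqI]
    · by_cases h : p.1 = q.1 <;> by_cases h' : p.2 = k.castSucc ∧ q.2 = k.succ <;>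
        simp [weighted, wR, Bridge.sqI, unitRight, h, h']
  set x : DimDrop := ⟨weighted wL unitLeft, hx⟩
  set y : Fin 2 → DimDrop := fun k => ⟨weighted wR (unitRight k), hy k⟩
  have h0 : ∀ w, weighted w 0 = 0 := fun w => by ext p q t; simp [weighted]
  have hadd : ∀ w m m', weighted w m + weighted w m' = weighted w (m + m') := fun w m m' => by
    ext p q t; simp [weighted, add_mul]
  have hx2 : x * x = 0 := Subtype.ext (by simp [x, weighted_mul, hL, h0])
  have hy2 : ∀ k, y k * y k = 0 := fun k => Subtype.ext (by simp [y, weighted_mul, hR, h0])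
  have sL : star wL = wL := by ext t; exact Complex.conj_ofReal _
  have sR : star wR = wR := Bridge.star_sqI
  have h1 : wL * wL + wR * wR = 1 := by
    ext t
    simp only [wL, wR, Bridge.sqI, ContinuousMap.add_apply, ContinuousMap.mul_apply,
      ContinuousMap.coe_mk, ContinuousMap.one_apply, ← Complex.ofReal_mul]
    rw [Real.mul_self_sqrt (by linarith [t.2.2]), Real.mul_self_sqrt t.2.1]
    push_cast
    ring
  have hsum : star x * x + x * star x +
      (y 0 * star (y 0) + y 1 * star (y 1) + star (y 1) * y 1) = 1 := Subtype.ext (by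
    simp only [x, y, AddMemClass.coe_add, MulMemClass.coe_mul, StarMemClass.coe_star,
      OneMemClass.coe_one, star_weighted, sL, sR, weighted_mul, hadd]
    rw [hL', hR']
    ext p q t
    have h2 := congrArg (fun F : C(I, ℂ) => F t) h1
    simp only [ContinuousMap.add_apply, ContinuousMap.one_apply] at h2
    by_cases h : p = q <;> simp [weighted, h, Matrix.one_apply]
    simpa using h2)
  refine ⟨fun χ => ?_⟩
  have ex : χ x = 0 := mul_self_eq_zero.1 (by rw [← map_mul, hx2, map_zero])
  have ey : ∀ k, χ (y k) = 0 := fun k => mul_self_eq_zero.1 (by rw [← map_mul, hy2, map_zero])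
  have := congrArg χ hsum
  simp [map_add, map_mul, ex, ey] at this

end Vale.Agent.P101
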