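import Vale.Agent.P101.Bridge.Rel

/-! Functional calculus of the central element and vanishing at an endpoint. -/

noncomputable section

open Filter Topology
open scoped unitInterval

namespace Vale.Agent.P101.Bridge

variable {D : Type*} [CStarAlgebra D] (P : Rel D)

/-- The coordinate. -/
def tI : C(I, ℂ) := ⟨fun t => ((t : ℝ) : ℂ), Complex.continuous_ofReal.comp continuous_subtype_val⟩

/-- The square root of the coordinate. -/
def sqI : C(I, ℂ) :=
  ⟨fun t => ((Real.sqrt (t : ℝ) : ℝ) : ℂ),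
    Complex.continuous_ofReal.comp (Real.continuous_sqrt.comp continuous_subtype_val)⟩

/-- The weight. -/
def wI : C(I, ℂ) := tI * tI * tI * ((1 - tI) * (1 - tI))

theorem star_tI : star tI = tI := by ext t; simp [tI]

theorem star_sqI : star sqI = sqI := by ext t; simp [sqI]

theorem sqI_mul_sqI : sqI * sqI = tI := by
  ext t
  simp [sqI, tI, ← Complex.ofReal_mul, Real.mul_self_sqrt t.2.1]

theorem star_wI : star wI = wI := by simp [wI, star_tI, mul_comm]

theorem wI_eq_zero {t : I} (h : wI t = 0) : t = 0 ∨ t = 1 := by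
  simp only [wI, tI, ContinuousMap.mul_apply, ContinuousMap.sub_apply, ContinuousMap.one_apply,
    ContinuousMap.coe_mk, mul_eq_zero, sub_eq_zero, Complex.ofReal_eq_zero, or_self] at h
  rcases h with h | h
  · exact Or.inl (Subtype.ext h)
  · refine Or.inr (Subtype.ext ?_)
    exact_mod_cast h.symm

namespace Rel

theorem isSelfAdjoint_T : IsSelfAdjoint P.T := P.star_T

theorem X_le_one [PartialOrder D] [StarOrderedRing D] : P.X ≤ 1 := by
  rw [X_eq, sub_le_self_iff]
  exact P.h_nonneg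

theorem vv_le_one [PartialOrder D] [StarOrderedRing D] : P.v * star P.v ≤ 1 := by
  rw [← CStarAlgebra.norm_le_one_iff_of_nonneg _ (mul_star_self_nonneg _),
    CStarRing.norm_self_mul_star, ← CStarRing.norm_star_mul_self, ← Rel.X,
    CStarAlgebra.norm_le_one_iff_of_nonneg _ (star_mul_self_nonneg _)]
  exact P.X_le_one

theorem u1_star_u1 : star (star P.c * P.v) * (star P.c * P.v) = P.X := by
  rw [star_mul, star_star, mul_assoc, P.cc'v, X]

theorem T_sq_le [PartialOrder D] [StarOrderedRing D] : 0 ≤ P.T - P.T * P.T := by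
  have hT2 : P.T * P.T = P.X * P.X + P.v * P.X * star P.v +
      star P.c * P.v * P.X * star (star P.c * P.v) := by
    have ha : P.T * (P.v * star P.v) = P.v * P.X * star P.v := by rw [← mul_assoc, P.Tv]
    have hb : P.T * (star P.c * P.v * star (star P.c * P.v)) =
        star P.c * P.v * P.X * star (star P.c * P.v) := by
      rw [← mul_assoc, ← mul_assoc, (P.comm_star P.comm_Tc).eq, mul_assoc _ P.T, P.Tv, ← mul_assoc]
    nth_rewrite 2 [T]
    rw [mul_add, mul_add, P.TX, ha, hb]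
  have e : P.T - P.T * P.T = P.h * P.X + P.v * P.h * star P.v +
      star P.c * P.v * P.h * star (star P.c * P.v) := by
    rw [hT2, T]
    simp only [X_eq, mul_sub, sub_mul, mul_one, one_mul]
    abel
  rw [e]
  refine add_nonneg (add_nonneg ?_ (star_right_conjugate_nonneg P.h_nonneg _))
    (star_right_conjugate_nonneg P.h_nonneg _)
  refine Commute.mul_nonneg P.h_nonneg (star_mul_self_nonneg _) ?_
  rw [X_eq]
  exact (Commute.one_right _).sub_right (Commute.refl _)

theorem spectrum_T {z : ℂ} (hz : z ∈ spectrum ℂ P.T) : z.re ∈ I ∧ z = (z.re : ℂ) := by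
  let _ : PartialOrder D := CStarAlgebra.spectralOrder D
  have : StarOrderedRing D := CStarAlgebra.spectralOrderedRing D
  have hre : z = (z.re : ℂ) := P.isSelfAdjoint_T.mem_spectrum_eq_re hz
  refine ⟨?_, hre⟩
  have hr : z.re ∈ spectrum ℝ P.T := by
    rw [← spectrum.algebraMap_mem_iff ℂ]
    rw [Complex.coe_algebraMap, ← hre]; exact hz
  have h : cfc (fun x : ℝ => x - x * x) P.T = P.T - P.T * P.T := by
    rw [cfc_sub (fun x : ℝ => x) (fun x : ℝ => x * x) P.T (by fun_prop) (by fun_prop),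
      cfc_mul (fun x : ℝ => x) (fun x : ℝ => x) P.T (by fun_prop) (by fun_prop),
      cfc_id' ℝ P.T P.isSelfAdjoint_T]
  have := P.T_sq_le
  rw [← h, cfc_nonneg_iff _ _ (by fun_prop) P.isSelfAdjoint_T] at this
  have h2 := this _ hr
  constructor <;> nlinarith

/-- The spectrum of the central element as a part of the interval. -/
def spec : C(spectrum ℂ P.T, I) :=
  ⟨fun z => ⟨(z : ℂ).re, (P.spectrum_T z.2).1⟩,
    (Complex.continuous_re.comp continuous_subtype_val).subtype_mk _⟩

/-- Functions of the central element. -/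
def ev : C(I, ℂ) →⋆ₐ[ℂ] D :=
  (cfcHom (R := ℂ) P.isSelfAdjoint_T.isStarNormal).comp (P.spec.compStarAlgHom' ℂ ℂ)

theorem ev_tI : P.ev tI = P.T := by
  have : P.spec.compStarAlgHom' ℂ ℂ tI = (ContinuousMap.id ℂ).restrict (spectrum ℂ P.T) := by
    ext z
    exact (P.spectrum_T z.2).2.symm
  simp only [ev, StarAlgHom.comp_apply, this]
  exact cfcHom_id _

theorem norm_ev_le (F : C(I, ℂ)) : ‖P.ev F‖ ≤ ‖F‖ := NonUnitalStarAlgHom.norm_apply_le P.ev F

theorem continuous_ev : Continuous P.ev :=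
  AddMonoidHomClass.continuous_of_bound P.ev 1 fun F => by simpa using P.norm_ev_le F

theorem comm_ev {x : D} (h : Commute P.T x) (F : C(I, ℂ)) : Commute (P.ev F) x :=
  Commute.cfcHom P.isSelfAdjoint_T.isStarNormal h (by rw [P.star_T]; exact h) _

theorem comm_ev_ev (F G : C(I, ℂ)) : Commute (P.ev F) (P.ev G) := (Commute.all F G).map P.ev

/-- Vanishing at the endpoint where `η` is one. -/
def Van (η : C(I, ℂ)) (x : D) : Prop :=
  Tendsto (fun n : ℕ => ‖x * P.ev (η ^ n)‖) atTop (𝓝 0)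

variable {P} {η : C(I, ℂ)}

theorem van_zero : P.Van η 0 := by simp [Van]

theorem Van.add {x y : D} (hx : P.Van η x) (hy : P.Van η y) : P.Van η (x + y) := by
  have h := Tendsto.add hx hy
  rw [add_zero] at h
  refine squeeze_zero (fun n => norm_nonneg (_ : D)) (fun n => ?_) h
  rw [add_mul]
  exact norm_add_le _ _

theorem Van.mul_left {x : D} (hx : P.Van η x) (a : D) : P.Van η (a * x) := by
  have h := Tendsto.const_mul ‖a‖ hx
  rw [mul_zero] at h
  refine squeeze_zero (fun n => norm_nonneg (_ : D)) (fun n => ?_) h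
  rw [mul_assoc]
  exact norm_mul_le _ _

theorem Van.mul_right {x a : D} (hx : P.Van η x) (ha : Commute P.T a) : P.Van η (x * a) := by
  have h := Tendsto.mul_const ‖a‖ hx
  rw [zero_mul] at h
  refine squeeze_zero (fun n => norm_nonneg (_ : D)) (fun n => ?_) h
  rw [mul_assoc, ← (P.comm_ev ha (η ^ n)).eq, ← mul_assoc]
  exact norm_mul_le _ _

theorem Van.neg {x : D} (hx : P.Van η x) : P.Van η (-x) := by simpa [Van] using hx

theorem Van.sub {x y : D} (hx : P.Van η x) (hy : P.Van η y) : P.Van η (x - y) := by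
  rw [sub_eq_add_neg]; exact hx.add hy.neg

theorem Van.smul {x : D} (hx : P.Van η x) (z : ℂ) : P.Van η (z • x) := by
  have := hx.mul_left (z • (1 : D))
  simpa using this

theorem van_sum {ι : Type*} (s : Finset ι) {x : ι → D} (hx : ∀ i ∈ s, P.Van η (x i)) :
    P.Van η (∑ i ∈ s, x i) :=
  Finset.sum_induction x (P.Van η) (fun _ _ => Van.add) van_zero hx

theorem Van.star' {x : D} (hx : P.Van η x) (hc : Commute P.T x) (hη : star η = η) :
    P.Van η (star x) := by
  refine hx.congr fun n => ?_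
  have e : star x * P.ev (η ^ n) = star (x * P.ev (η ^ n)) := by
    rw [← (P.comm_ev hc (η ^ n)).eq, star_mul, ← map_star, star_pow, hη]
  rw [e, norm_star]

theorem norm_pow_le_one (hη : ‖η‖ ≤ 1) (n : ℕ) : ‖η ^ n‖ ≤ 1 :=
  (norm_pow_le η n).trans (pow_le_one₀ (norm_nonneg _) hη)

theorem van_of_tendsto {x : ℕ → D} {y : D} (hη : ‖η‖ ≤ 1) (hx : ∀ k, P.Van η (x k))
    (h : Tendsto x atTop (𝓝 y)) : P.Van η y := by
  refine Metric.tendsto_atTop.2 fun ε hε => ?_
  obtain ⟨k, hk⟩ := (Metric.tendsto_atTop.1 h) (ε / 2) (by linarith)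
  obtain ⟨N, hN⟩ := (Metric.tendsto_atTop.1 (hx k)) (ε / 2) (by linarith)
  refine ⟨N, fun n hn => ?_⟩
  have h1 := hN n hn
  have h2 := hk k le_rfl
  rw [Real.dist_eq, sub_zero, abs_of_nonneg (norm_nonneg _)] at h1 ⊢
  rw [dist_eq_norm'] at h2
  calc ‖y * P.ev (η ^ n)‖ = ‖x k * P.ev (η ^ n) + (y - x k) * P.ev (η ^ n)‖ := by
        rw [← add_mul, add_sub_cancel]
    _ ≤ ‖x k * P.ev (η ^ n)‖ + ‖y - x k‖ * 1 := by
        refine (norm_add_le _ _).trans (add_le_add le_rfl ((norm_mul_le _ _).trans ?_))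
        exact mul_le_mul_of_nonneg_left ((P.norm_ev_le _).trans (norm_pow_le_one hη n)) (norm_nonneg _)
    _ < ε := by linarith

variable (P)

/-- A function of the central element with small products vanishes there. -/
theorem van_ev {F : C(I, ℂ)} (h : Tendsto (fun n : ℕ => ‖F * η ^ n‖) atTop (𝓝 0)) :
    P.Van η (P.ev F) := by
  refine squeeze_zero (fun n => norm_nonneg (_ : D)) (fun n => ?_) h
  rw [← map_mul]
  exact P.norm_ev_le _

end Rel

/-- Geometric decay against the complementary coordinate. -/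
theorem norm_mul_pow_le (n : ℕ) : ‖tI * (1 - tI) ^ n‖ ≤ 1 / ((n : ℝ) + 1) := by
  refine (ContinuousMap.norm_le _ (by positivity)).2 fun t => ?_
  set x : ℝ := (t : ℝ) with hx
  have h0 : 0 ≤ x := t.2.1
  have h1 : x ≤ 1 := t.2.2
  have e : (tI * (1 - tI) ^ n) t = ((x * (1 - x) ^ n : ℝ) : ℂ) := by simp [tI, hx]
  rw [e, Complex.norm_real, Real.norm_eq_abs,
    abs_of_nonneg (mul_nonneg h0 (pow_nonneg (by linarith) n))]
  have hs : ((n : ℝ) + 1) * (x * (1 - x) ^ n) ≤ ∑ k ∈ Finset.range (n + 1), x * (1 - x) ^ k := by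
    calc ((n : ℝ) + 1) * (x * (1 - x) ^ n)
        = ∑ _k ∈ Finset.range (n + 1), x * (1 - x) ^ n := by simp
      _ ≤ _ := Finset.sum_le_sum fun k hk => mul_le_mul_of_nonneg_left
          (pow_le_pow_of_le_one (by linarith) (by linarith)
            (Nat.lt_succ_iff.1 (Finset.mem_range.1 hk))) h0
  have hg : ∑ k ∈ Finset.range (n + 1), x * (1 - x) ^ k = 1 - (1 - x) ^ (n + 1) := by
    have := mul_neg_geom_sum (1 - x) (n + 1)
    rw [← Finset.mul_sum]
    simpa using this
  rw [le_div_iff₀ (by positivity)]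
  nlinarith [pow_nonneg (show 0 ≤ 1 - x by linarith) (n + 1)]

theorem tendsto_tI : Tendsto (fun n : ℕ => ‖tI * (1 - tI) ^ n‖) atTop (𝓝 0) :=
  squeeze_zero (fun _ => norm_nonneg _) norm_mul_pow_le
    (tendsto_one_div_add_atTop_nhds_zero_nat (𝕜 := ℝ))

theorem tendsto_one_sub_tI : Tendsto (fun n : ℕ => ‖(1 - tI) * tI ^ n‖) atTop (𝓝 0) := by
  refine squeeze_zero (fun n => norm_nonneg _) (fun n => ?_) tendsto_tI
  refine (ContinuousMap.norm_le _ (norm_nonneg _)).2 fun t => ?_
  refine le_trans (le_of_eq ?_) (ContinuousMap.norm_coe_le_norm _ (σ t))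
  simp [tI]

theorem norm_tI_le : ‖tI‖ ≤ 1 := (ContinuousMap.norm_le _ zero_le_one).2 fun t => by
  simp [tI, abs_le]
  constructor <;> linarith [t.2.1, t.2.2]

theorem norm_one_sub_tI_le : ‖1 - tI‖ ≤ 1 := (ContinuousMap.norm_le _ zero_le_one).2 fun t => by
  have : (1 - tI) t = (((1 - t : ℝ)) : ℂ) := by simp [tI]
  rw [this, Complex.norm_real, Real.norm_eq_abs, abs_le]
  constructor <;> linarith [t.2.1, t.2.2]

end Vale.Agent.P101.Bridge
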