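import Vale.Agent.P101.Bridge.Rows

/-! Estimates at the endpoints, uniqueness, and division by the weight. -/

noncomputable section

open Filter Topology
open scoped unitInterval

namespace Vale.Agent.P101.Bridge

/-- The weight as a real function. -/
def wR (t : I) : ℝ := (t : ℝ) * t * t * ((1 - t) * (1 - t))

theorem wR_nonneg (t : I) : 0 ≤ wR t :=
  mul_nonneg (mul_nonneg (mul_self_nonneg _) t.2.1) (mul_self_nonneg _)

theorem continuous_wR : Continuous wR := by unfold wR; fun_prop

theorem wI_apply (t : I) : wI t = ((wR t : ℝ) : ℂ) := by simp [wI, tI, wR]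

/-- Approximate inverses of the weight. -/
def inv (n : ℕ) : C(I, ℂ) :=
  ⟨fun t => (((wR t + 1 / ((n : ℝ) + 1))⁻¹ : ℝ) : ℂ),
    Complex.continuous_ofReal.comp ((continuous_wR.add continuous_const).inv₀ fun t =>
      ne_of_gt (add_pos_of_nonneg_of_pos (wR_nonneg t) (by positivity : (0 : ℝ) < 1 / ((n : ℝ) + 1))))⟩

/-- Division by the weight converges for functions vanishing at both endpoints. -/
theorem tendsto_inv {F : C(I, ℂ)} (h0 : F 0 = 0) (h1 : F 1 = 0) :
    Tendsto (fun n : ℕ => wI * (F * inv n)) atTop (𝓝 F) := by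
  refine Metric.tendsto_atTop.2 fun ε hε => ?_
  have hK : IsCompact {t : I | ε / 2 ≤ ‖F t‖} :=
    (isClosed_le continuous_const F.continuous.norm).isCompact
  obtain ⟨η, hη, hηw⟩ := hK.exists_forall_le' (f := wR) (a := 0) continuous_wR.continuousOn (by
    intro t ht
    refine (wR_nonneg t).lt_of_ne fun hw => ?_
    have h2 : wI t = 0 := by rw [wI_apply, ← hw]; simp
    rcases wI_eq_zero h2 with rfl | rfl
    · simp [h0] at ht; linarith
    · simp [h1] at ht; linarith)
  obtain ⟨N, hN⟩ := exists_nat_gt (‖F‖ / (η * (ε / 2)))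
  refine ⟨N, fun n hn => ?_⟩
  rw [dist_eq_norm]
  refine lt_of_le_of_lt ((ContinuousMap.norm_le _ (by linarith : (0 : ℝ) ≤ ε / 2)).2 fun t => ?_)
    (by linarith)
  set δ : ℝ := 1 / ((n : ℝ) + 1) with hδdef
  have hδ : 0 < δ := by positivity
  have hwd : 0 < wR t + δ := add_pos_of_nonneg_of_pos (wR_nonneg t) hδ
  have e : (wI * (F * inv n) - F) t = -(((δ / (wR t + δ) : ℝ) : ℂ) * F t) := by
    simp only [ContinuousMap.sub_apply, ContinuousMap.mul_apply, wI_apply, inv,
      ContinuousMap.coe_mk, ← hδdef]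
    rw [show (δ / (wR t + δ) : ℝ) = 1 - wR t * (wR t + δ)⁻¹ by field_simp; ring]
    push_cast
    ring
  rw [e, norm_neg, norm_mul, Complex.norm_real, Real.norm_eq_abs, abs_of_pos (div_pos hδ hwd)]
  rcases lt_or_ge ‖F t‖ (ε / 2) with h | h
  · refine le_trans ?_ h.le
    exact mul_le_of_le_one_left (norm_nonneg _) ((div_le_one hwd).2 (by linarith [wR_nonneg t]))
  · have hw := hηw t h
    calc δ / (wR t + δ) * ‖F t‖ ≤ δ / η * ‖F‖ := mul_le_mul
          (div_le_div_of_nonneg_left hδ.le hη (by linarith))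
          (F.norm_coe_le_norm t) (norm_nonneg _) (by positivity)
      _ ≤ ε / 2 := by
          rw [hδdef, div_div, one_div_mul_eq_div, div_le_iff₀ (by positivity)]
          rw [div_lt_iff₀ (by positivity)] at hN
          have : (N : ℝ) ≤ n := by exact_mod_cast hn
          nlinarith [mul_pos hη (half_pos hε)]

namespace Rel

variable {D : Type*} [CStarAlgebra D] {P : Rel D}

theorem van_of_star_mul_self {η : C(I, ℂ)} {x : D} (hη : ‖η‖ ≤ 1)
    (h : P.Van η (star x * x)) : P.Van η x := by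
  have h2 : Tendsto (fun n : ℕ => Real.sqrt ‖star x * x * P.ev (η ^ n)‖) atTop (𝓝 0) := by
    simpa [Function.comp_def] using (Real.continuous_sqrt.tendsto 0).comp h
  refine squeeze_zero (fun n => norm_nonneg (_ : D)) (fun n => ?_) h2
  refine Real.le_sqrt_of_sq_le ?_
  rw [sq, ← CStarRing.norm_star_mul_self, star_mul]
  calc ‖star (P.ev (η ^ n)) * star x * (x * P.ev (η ^ n))‖
      = ‖star (P.ev (η ^ n)) * (star x * x * P.ev (η ^ n))‖ := by simp only [mul_assoc]
    _ ≤ 1 * ‖star x * x * P.ev (η ^ n)‖ := by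
        refine (norm_mul_le _ _).trans (mul_le_mul_of_nonneg_right ?_ (norm_nonneg _))
        rw [norm_star]
        exact (P.norm_ev_le _).trans (norm_pow_le_one hη n)
    _ = _ := one_mul _

variable (P)

theorem van0_T : P.Van (1 - tI) P.T := by
  rw [← ev_tI]
  exact P.van_ev tendsto_tI

theorem van1_one_sub_T : P.Van tI (1 - P.T) := by
  rw [← ev_tI, ← map_one P.ev, ← map_sub]
  exact P.van_ev tendsto_one_sub_tI

theorem van0_X : P.Van (1 - tI) P.X := by
  refine van_of_star_mul_self norm_one_sub_tI_le ?_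
  rw [P.star_X, ← P.TX]
  exact P.van0_T.mul_right P.comm_TX

theorem norm_N_mul_le (p q : Fin 2 × Fin 3) (F : C(I, ℂ)) :
    ‖P.N p q * P.ev F‖ ≤ ‖wI * F‖ := by
  let _ : PartialOrder D := CStarAlgebra.spectralOrder D
  have : StarOrderedRing D := CStarAlgebra.spectralOrderedRing D
  set G : C(I, ℂ) := sqI * tI * (1 - tI) * F
  have hN : P.N q q ≤ P.ev wI := by
    rw [← sum_N]
    exact Finset.single_le_sum (f := fun r => P.N r r) (fun r _ => mul_star_self_nonneg _)
      (Finset.mem_univ q)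
  have hG : star F * wI * F = star G * G := by
    have : wI = sqI * tI * (1 - tI) * (sqI * tI * (1 - tI)) := by
      rw [wI]; linear_combination -(tI * tI * (1 - tI) * (1 - tI)) * sqI_mul_sqI
    simp only [G, star_mul, star_sqI, star_tI, star_sub, star_one]
    rw [this]
    ring
  have e : star (P.N p q * P.ev F) * (P.N p q * P.ev F) = star (P.ev G) * P.N q q * P.ev G := by
    rw [star_mul, star_N, mul_assoc, ← mul_assoc (P.N q p), N_mul, if_pos rfl,
      mul_assoc (P.ev wI), ← (P.comm_ev (P.comm_T_N q q) F).eq, mul_assoc (star (P.ev G)),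
      ← (P.comm_ev (P.comm_T_N q q) G).eq, ← map_star, ← map_star]
    simp only [← mul_assoc, ← map_mul]
    rw [hG]
  have e' : star (P.ev (wI * F)) * P.ev (wI * F) = star (P.ev G) * P.ev wI * P.ev G := by
    simp only [← map_star, ← map_mul]
    congr 1
    have := congrArg (fun H => H * wI) hG
    simp only [star_mul, star_wI] at this ⊢
    linear_combination this
  refine le_trans ?_ (P.norm_ev_le _)
  refine nonneg_le_nonneg_of_sq_le_sq (norm_nonneg _) ?_
  rw [← CStarRing.norm_star_mul_self, ← CStarRing.norm_star_mul_self, e, e']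
  exact CStarAlgebra.norm_le_norm_of_nonneg_of_le
    (star_left_conjugate_nonneg (mul_star_self_nonneg _) _) (star_left_conjugate_le_conjugate hN _)

theorem van_N {η : C(I, ℂ)} (h : Tendsto (fun n : ℕ => ‖wI * η ^ n‖) atTop (𝓝 0))
    (p q : Fin 2 × Fin 3) : P.Van η (P.N p q) :=
  squeeze_zero (fun _ => norm_nonneg (_ : D)) (fun n => P.norm_N_mul_le p q (η ^ n)) h

theorem tendsto_wI_zero : Tendsto (fun n : ℕ => ‖wI * (1 - tI) ^ n‖) atTop (𝓝 0) := by
  refine squeeze_zero (fun _ => norm_nonneg _) (fun n => ?_)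
    (by simpa using tendsto_tI.const_mul ‖tI * tI * ((1 - tI) * (1 - tI))‖)
  rw [show wI * (1 - tI) ^ n = tI * tI * ((1 - tI) * (1 - tI)) * (tI * (1 - tI) ^ n) by
    rw [wI]; ring]
  exact norm_mul_le _ _

theorem tendsto_wI_one : Tendsto (fun n : ℕ => ‖wI * tI ^ n‖) atTop (𝓝 0) := by
  refine squeeze_zero (fun _ => norm_nonneg _) (fun n => ?_)
    (by simpa using tendsto_one_sub_tI.const_mul ‖tI * tI * tI * (1 - tI)‖)
  rw [show wI * tI ^ n = tI * tI * tI * (1 - tI) * ((1 - tI) * tI ^ n) by rw [wI]; ring]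
  exact norm_mul_le _ _

theorem van0_N (p q : Fin 2 × Fin 3) : P.Van (1 - tI) (P.N p q) := P.van_N tendsto_wI_zero p q

theorem van1_N (p q : Fin 2 × Fin 3) : P.Van tI (P.N p q) := P.van_N tendsto_wI_one p q

/-- An element killed by the weight that vanishes at both endpoints is zero. -/
theorem eq_zero_of_van {d : D} (hw : d * P.ev wI = 0) (h0 : P.Van (1 - tI) d)
    (h1 : P.Van tI d) : d = 0 := by
  have hF : ∀ F : C(I, ℂ), F 0 = 0 → F 1 = 0 → d * P.ev F = 0 := by
    intro F hF0 hF1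
    have h2 : Tendsto (fun n => d * P.ev (wI * (F * inv n))) atTop (𝓝 (d * P.ev F)) :=
      ((P.continuous_ev.tendsto F).comp (tendsto_inv hF0 hF1)).const_mul d
    have h3 : ∀ n, d * P.ev (wI * (F * inv n)) = 0 := fun n => by
      rw [map_mul, ← mul_assoc, hw, zero_mul]
    simp only [h3] at h2
    exact tendsto_nhds_unique h2 tendsto_const_nhds
  rw [← norm_eq_zero]
  refine le_antisymm (ge_of_tendsto (x := atTop) (f := fun n : ℕ =>
    ‖d * P.ev ((1 - tI) ^ n)‖ + ‖d * P.ev (tI ^ n)‖) (by simpa using Tendsto.add h0 h1) ?_)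
      (norm_nonneg _)
  filter_upwards [eventually_ge_atTop 1] with n hn
  have h2 := hF (1 - (1 - tI) ^ n - tI ^ n)
    (by simp [tI, zero_pow (by omega : n ≠ 0)]) (by simp [tI, zero_pow (by omega : n ≠ 0)])
  rw [map_sub, map_sub, map_one, mul_sub, mul_sub, mul_one, sub_sub, sub_eq_zero] at h2
  calc ‖d‖ = ‖d * P.ev ((1 - tI) ^ n) + d * P.ev (tI ^ n)‖ := by rw [← h2]
    _ ≤ _ := norm_add_le _ _

/-- The interior part. -/
theorem exists_interior {F : C(I, ℂ)} (h0 : F 0 = 0) (h1 : F 1 = 0) (p q : Fin 2 × Fin 3) :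
    ∃ y : D, Commute P.T y ∧ y * P.ev wI = P.ev F * P.N p q ∧ P.Van (1 - tI) y ∧ P.Van tI y := by
  set x : ℕ → D := fun n => P.N p q * P.ev (F * inv n)
  have hc : CauchySeq x := by
    have hF := (tendsto_inv h0 h1).cauchySeq
    rw [Metric.cauchySeq_iff] at hF ⊢
    intro ε hε
    obtain ⟨N, hN⟩ := hF ε hε
    refine ⟨N, fun m hm n hn => lt_of_le_of_lt ?_ (hN m hm n hn)⟩
    rw [dist_eq_norm, dist_eq_norm, ← mul_sub wI]
    simp only [x, ← mul_sub, ← map_sub]
    exact P.norm_N_mul_le p q _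
  obtain ⟨y, hy⟩ := cauchySeq_tendsto_of_complete hc
  have hxc : ∀ n, Commute P.T (x n) := fun n =>
    (P.comm_T_N p q).mul_right (P.comm_ev (Commute.refl P.T) _).symm
  refine ⟨y, ?_, ?_, van_of_tendsto norm_one_sub_tI_le
    (fun n => (P.van0_N p q).mul_right (P.comm_ev (Commute.refl P.T) _).symm) hy,
    van_of_tendsto norm_tI_le
    (fun n => (P.van1_N p q).mul_right (P.comm_ev (Commute.refl P.T) _).symm) hy⟩
  · refine tendsto_nhds_unique (hy.const_mul P.T) ?_
    exact (hy.mul_const P.T).congr fun n => (hxc n).eq.symm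
  · refine tendsto_nhds_unique (hy.mul_const (P.ev wI)) ?_
    have h2 : Tendsto (fun n => P.N p q * P.ev (wI * (F * inv n))) atTop
        (𝓝 (P.N p q * P.ev F)) :=
      ((P.continuous_ev.tendsto F).comp (tendsto_inv h0 h1)).const_mul _
    rw [(P.comm_ev (P.comm_T_N p q) F).eq]
    refine h2.congr fun n => ?_
    show P.N p q * P.ev (wI * (F * inv n)) = P.N p q * P.ev (F * inv n) * P.ev wI
    rw [mul_assoc, ← map_mul, mul_comm wI]

end Rel

end Vale.Agent.P101.Bridge
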