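import Vale.Agent.P101.Defs

/-! Algebra of the relations of an order zero map of `M₂` and a comparison element. -/

noncomputable section

namespace Vale.Agent.P101.Bridge

/-- The relations. -/
structure Rel (D : Type*) [CStarAlgebra D] where
  c : D
  e : D
  f : D
  v : D
  r : D
  s : D
  hr : star r * r = e
  hs : star s * s = f
  cc : c * c = 0
  cc' : c * star c = e * e
  c'c : star c * c = f * f
  vv : star v * v = 1 - e - f
  eV : e * v = v

variable {D : Type*} [CStarAlgebra D] (P : Rel D)

namespace Rel

/-- The unit of the order zero map. -/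
def h : D := P.e + P.f

/-- The defect. -/
def X : D := star P.v * P.v

/-- The central element. -/
def T : D := P.X + P.v * star P.v + star P.c * P.v * star (star P.c * P.v)

theorem X_eq : P.X = 1 - P.h := by rw [X, P.vv, h, sub_sub]

theorem star_e : star P.e = P.e := by rw [← P.hr, star_mul, star_star]

theorem star_f : star P.f = P.f := by rw [← P.hs, star_mul, star_star]

theorem star_h : star P.h = P.h := by rw [h, star_add, P.star_e, P.star_f]

theorem star_X : star P.X = P.X := by rw [X, star_mul, star_star]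

theorem star_T : star P.T = P.T := by simp [T, P.star_X, mul_assoc]

theorem eq_zero_of_self_mul_star {x : D} (h : x * star x = 0) : x = 0 :=
  CStarRing.mul_star_self_eq_zero_iff x |>.1 h

theorem ef : P.e * P.f = 0 := by
  have h2 : P.e * P.e * (P.f * P.f) = 0 := by
    rw [← P.cc', ← P.c'c]
    have : star P.c * star P.c = 0 := by rw [← star_mul, P.cc, star_zero]
    calc P.c * star P.c * (star P.c * P.c) = P.c * (star P.c * star P.c) * P.c := by noncomm_ring
      _ = 0 := by rw [this]; simp
  have h1 : P.e * (P.f * P.f) = 0 := by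
    apply CStarRing.star_mul_self_eq_zero_iff _ |>.1
    calc star (P.e * (P.f * P.f)) * (P.e * (P.f * P.f))
        = P.f * P.f * (P.e * P.e * (P.f * P.f)) := by
          simp only [star_mul, P.star_e, P.star_f]; noncomm_ring
      _ = 0 := by rw [h2, mul_zero]
  apply eq_zero_of_self_mul_star
  calc P.e * P.f * star (P.e * P.f) = P.e * (P.f * P.f) * P.e := by
        simp only [star_mul, P.star_e, P.star_f]; noncomm_ring
    _ = 0 := by rw [h1, zero_mul]

theorem fe : P.f * P.e = 0 := by
  simpa [P.star_e, P.star_f] using congrArg star P.ef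

theorem fc : P.f * P.c = 0 := by
  apply eq_zero_of_self_mul_star
  calc P.f * P.c * star (P.f * P.c) = P.f * (P.c * star P.c) * P.f := by
        simp only [star_mul, P.star_f]; noncomm_ring
    _ = 0 := by rw [P.cc', ← mul_assoc P.f, P.fe]; simp

theorem ce : P.c * P.e = 0 := by
  apply CStarRing.star_mul_self_eq_zero_iff _ |>.1
  calc star (P.c * P.e) * (P.c * P.e) = P.e * (star P.c * P.c) * P.e := by
        simp only [star_mul, P.star_e]; noncomm_ring
    _ = 0 := by rw [P.c'c, ← mul_assoc P.e, P.ef]; simp

theorem ec' : P.e * star P.c = 0 := by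
  simpa [P.star_e] using congrArg star P.ce

theorem c'f : star P.c * P.f = 0 := by
  simpa [P.star_f] using congrArg star P.fc

theorem h_nonneg [PartialOrder D] [StarOrderedRing D] : 0 ≤ P.h := by
  rw [h, ← P.hr, ← P.hs]
  exact add_nonneg (star_mul_self_nonneg _) (star_mul_self_nonneg _)

theorem hh : P.h * P.h = P.e * P.e + P.f * P.f := by
  simp [h, add_mul, mul_add, P.ef, P.fe]

theorem comm_hc : Commute P.h P.c := by
  let _ : PartialOrder D := CStarAlgebra.spectralOrder D
  have : StarOrderedRing D := CStarAlgebra.spectralOrderedRing D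
  have h2 : Commute (P.h * P.h) P.c := by
    show P.h * P.h * P.c = P.c * (P.h * P.h)
    rw [P.hh, add_mul, mul_add, mul_assoc P.f, P.fc, ← mul_assoc P.c, P.ce, ← P.cc', ← P.c'c]
    simp [mul_assoc]
  have h3 := h2.cfc_nnreal NNReal.sqrt
  rw [← CFC.sqrt_eq_cfc, CFC.sqrt_mul_self P.h P.h_nonneg] at h3
  exact h3

theorem ec : P.e * P.c = P.h * P.c := by simp [h, add_mul, P.fc]

theorem cf : P.c * P.f = P.h * P.c := by rw [P.comm_hc.eq]; simp [h, mul_add, P.ce]

theorem c'e : star P.c * P.e = P.h * star P.c := by
  simpa [P.star_e, P.star_h, P.comm_hc.eq] using congrArg star P.ec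

theorem fc' : P.f * star P.c = star P.c * P.e := by
  have := congrArg star (P.cf.trans P.ec.symm)
  simpa [P.star_e, P.star_f] using this

theorem ee : P.e * P.e = P.h * P.e := by simp [h, add_mul, P.fe]

theorem ff : P.f * P.f = P.h * P.f := by simp [h, add_mul, P.ef]

theorem he : Commute P.h P.e := by
  show P.h * P.e = P.e * P.h
  simp [h, add_mul, mul_add, P.ef, P.fe]

theorem hf : Commute P.h P.f := by
  show P.h * P.f = P.f * P.h
  simp [h, add_mul, mul_add, P.ef, P.fe]

theorem fv : P.f * P.v = 0 := by rw [← P.eV, ← mul_assoc, P.fe, zero_mul]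

theorem hv : P.h * P.v = P.v := by rw [h, add_mul, P.eV, P.fv, add_zero]

theorem cv : P.c * P.v = 0 := by rw [← P.eV, ← mul_assoc, P.ce, zero_mul]

theorem Xv : P.X * P.v = 0 := by rw [X_eq, sub_mul, one_mul, P.hv, sub_self]

theorem vv0 : P.v * P.v = 0 := by
  apply CStarRing.star_mul_self_eq_zero_iff _ |>.1
  calc star (P.v * P.v) * (P.v * P.v) = star P.v * (P.X * P.v) := by
        simp only [star_mul, X]; noncomm_ring
    _ = 0 := by rw [P.Xv, mul_zero]

theorem Xc : Commute P.X P.c := by
  rw [X_eq]; exact (Commute.one_left _).sub_left P.comm_hc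

theorem Xe : Commute P.X P.e := by rw [X_eq]; exact (Commute.one_left _).sub_left P.he

theorem Xf : Commute P.X P.f := by rw [X_eq]; exact (Commute.one_left _).sub_left P.hf

theorem Xc' : Commute P.X (star P.c) := by
  have := congrArg star P.Xc.eq
  rw [star_mul, star_mul, P.star_X] at this
  exact this.symm

theorem v'e : star P.v * P.e = star P.v := by
  simpa [P.star_e] using congrArg star P.eV

theorem v'X : star P.v * P.X = 0 := by
  simpa [P.star_X] using congrArg star P.Xv

theorem v'c' : star P.v * star P.c = 0 := by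
  simpa using congrArg star P.cv

theorem v'f : star P.v * P.f = 0 := by
  simpa [P.star_f] using congrArg star P.fv

theorem e'cv : P.e * (star P.c * P.v) = 0 := by rw [← mul_assoc, P.ec', zero_mul]

theorem cc'v : P.c * (star P.c * P.v) = P.v := by
  rw [← mul_assoc, P.cc', mul_assoc, P.eV, P.eV]

theorem fc'v : P.f * (star P.c * P.v) = star P.c * P.v := by
  rw [← mul_assoc, P.fc', mul_assoc, P.eV]

theorem c'c'v : star P.c * (star P.c * P.v) = 0 := by
  rw [← mul_assoc, ← star_mul, P.cc, star_zero, zero_mul]

theorem Xc'v : P.X * (star P.c * P.v) = 0 := by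
  rw [← mul_assoc, P.Xc'.eq, mul_assoc, P.Xv, mul_zero]

theorem v'c'v : star P.v * (star P.c * P.v) = 0 := by
  rw [← mul_assoc, P.v'c', zero_mul]

theorem vc'v : P.v * (star P.c * P.v) = 0 := by
  apply CStarRing.star_mul_self_eq_zero_iff _ |>.1
  calc star (P.v * (star P.c * P.v)) * (P.v * (star P.c * P.v))
      = star (star P.c * P.v) * (P.X * (star P.c * P.v)) := by
        rw [X]; simp only [star_mul, mul_assoc]
    _ = 0 := by rw [P.Xc'v, mul_zero]

/-- A product of elements evaluated after a given one. -/
theorem mul_eq {a b x : D} (h : a * b = x) (y : D) : a * (b * y) = x * y := by rw [← mul_assoc, h]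

theorem comm_Tc : Commute P.T P.c := by
  show P.T * P.c = P.c * P.T
  simp only [T, star_mul, star_star, add_mul, mul_add, mul_assoc, P.cc, mul_eq P.cc', mul_eq P.cv,
    mul_zero, zero_mul, add_zero]
  rw [mul_eq P.eV, P.Xc.eq, mul_eq P.eV]

theorem comm_Te : Commute P.T P.e := by
  show P.T * P.e = P.e * P.T
  simp only [T, star_mul, star_star, add_mul, mul_add, mul_assoc, P.ce, P.v'e, mul_eq P.eV,
    mul_eq P.ec', mul_zero, zero_mul, add_zero]
  rw [P.Xe.eq]

theorem comm_Tf : Commute P.T P.f := by
  show P.T * P.f = P.f * P.T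
  simp only [T, star_mul, star_star, add_mul, mul_add, mul_assoc, P.v'f, mul_eq P.fv,
    mul_zero, zero_mul, add_zero]
  rw [P.Xf.eq, P.cf, mul_eq P.fc', ← P.ec, mul_eq P.v'e]
  simp only [mul_assoc, mul_eq P.eV]

theorem Tv : P.T * P.v = P.v * P.X := by
  have h1 : P.v * star P.v * P.v = P.v * P.X := by rw [mul_assoc, X]
  have h2 : star P.c * P.v * star (star P.c * P.v) * P.v = 0 := by
    rw [star_mul, star_star, mul_assoc, mul_assoc (star P.v), P.cv, mul_zero, mul_zero]
  rw [T, add_mul, add_mul, P.Xv, h1, h2, zero_add, add_zero]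

theorem comm_Tv : Commute P.T P.v := by
  show P.T * P.v = P.v * P.T
  have h1 : P.v * (P.v * star P.v) = 0 := by rw [← mul_assoc, P.vv0, zero_mul]
  have h2 : P.v * (star P.c * P.v * star (star P.c * P.v)) = 0 := by
    rw [← mul_assoc, P.vc'v, zero_mul]
  rw [P.Tv, T, mul_add, mul_add, h1, h2, add_zero, add_zero]

theorem TX : P.T * P.X = P.X * P.X := by
  have h1 : P.v * star P.v * P.X = 0 := by rw [mul_assoc, P.v'X, mul_zero]
  have h2 : star P.c * P.v * star (star P.c * P.v) * P.X = 0 := by
    rw [star_mul, star_star, mul_assoc, mul_assoc (star P.v), ← P.Xc.eq,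
      ← mul_assoc (star P.v), P.v'X, zero_mul, mul_zero]
  rw [T, add_mul, add_mul, h1, h2, add_zero, add_zero]

theorem comm_star {x : D} (h : Commute P.T x) : Commute P.T (star x) := by
  have := congrArg star h.eq
  rw [star_mul, star_mul, P.star_T] at this
  exact this.symm

theorem comm_TX : Commute P.T P.X := (P.comm_star P.comm_Tv).mul_right P.comm_Tv

theorem hX : P.h * P.X = (1 - P.T) * P.X := by
  rw [sub_mul, one_mul, P.TX, X_eq]
  noncomm_ring

end Rel

end Vale.Agent.P101.Bridge
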