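import Vale.Agent.P101.Bridge.Calc

/-! The six rows and the action of the generators on them. -/

noncomputable section

open scoped unitInterval

namespace Vale.Agent.P101.Bridge

variable {D : Type*} [CStarAlgebra D] (P : Rel D)

/-- The change of grouping between the two endpoints. -/
def perm (p : Fin 2 × Fin 3) : Fin 2 × Fin 3 :=
  ![![((0 : Fin 2), (0 : Fin 3)), (1, 0), (0, 2)], ![(0, 1), (1, 1), (1, 2)]] p.1 p.2

theorem perm_perm : ∀ p, perm (perm p) = p := by decide

/-- Weights of the order zero map on the rows. -/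
def rho : Fin 3 → C(I, ℂ) := ![1, 1, 1 - tI]

/-- Weights of the adjoint generators on the rows. -/
def chi : Fin 3 → C(I, ℂ) := ![tI, tI, sqI * tI]

/-- Weights of the generators on the base rows. -/
def psi : Fin 3 → C(I, ℂ) := ![1, 1, sqI]

namespace Rel

/-- The order zero map on matrix units. -/
def phi : Fin 2 → Fin 2 → D := ![![P.e, P.c], ![star P.c, P.f]]

/-- The transport from the corner of `e`. -/
def g : Fin 2 → D := ![1, star P.c]

/-- The partial isometries at the endpoint one. -/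
def u : Fin 3 → D := ![P.g 0 * P.v, P.g 1 * P.v, P.X]

/-- The base rows. -/
def A : Fin 2 → D := ![P.e * P.X, star P.c * P.X]

/-- The square root of the central element. -/
def R : D := P.ev sqI

/-- The rows, grouped as at the endpoint one. -/
def Bk (k : Fin 3) (s : Fin 2) : D :=
  ![P.g 0 * (P.v * P.A s), P.g 1 * (P.v * P.A s), P.R * P.A s] k

/-- The rows. -/
def B (p : Fin 2 × Fin 3) : D := P.Bk (perm p).2 (perm p).1

/-- The interior matrix units. -/
def N (p q : Fin 2 × Fin 3) : D := P.B p * star (P.B q)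

theorem RR : P.R * P.R = P.T := by rw [R, ← map_mul, sqI_mul_sqI, ev_tI]

theorem star_R : star P.R = P.R := by rw [R, ← map_star, star_sqI]

theorem comm_R {x : D} (h : Commute P.T x) : Commute P.R x := P.comm_ev h _

theorem comm_T_phi (a b : Fin 2) : Commute P.T (P.phi a b) := by
  fin_cases a <;> fin_cases b
  · exact P.comm_Te
  · exact P.comm_Tc
  · exact P.comm_star P.comm_Tc
  · exact P.comm_Tf

theorem comm_T_g (i : Fin 2) : Commute P.T (P.g i) := by
  fin_cases i
  · exact Commute.one_right _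
  · exact P.comm_star P.comm_Tc

theorem comm_T_u (k : Fin 3) : Commute P.T (P.u k) := by
  fin_cases k
  · exact (P.comm_T_g 0).mul_right P.comm_Tv
  · exact (P.comm_T_g 1).mul_right P.comm_Tv
  · exact P.comm_TX

theorem comm_T_A (s : Fin 2) : Commute P.T (P.A s) := by
  fin_cases s
  · exact P.comm_Te.mul_right P.comm_TX
  · exact (P.comm_star P.comm_Tc).mul_right P.comm_TX

theorem comm_T_R : Commute P.T P.R := (P.comm_R (Commute.refl P.T)).symm

theorem comm_T_Bk (k : Fin 3) (s : Fin 2) : Commute P.T (P.Bk k s) := by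
  fin_cases k
  · exact (P.comm_T_g 0).mul_right (P.comm_Tv.mul_right (P.comm_T_A s))
  · exact (P.comm_T_g 1).mul_right (P.comm_Tv.mul_right (P.comm_T_A s))
  · exact P.comm_T_R.mul_right (P.comm_T_A s)

theorem comm_T_B (p : Fin 2 × Fin 3) : Commute P.T (P.B p) := P.comm_T_Bk _ _

theorem comm_T_N (p q : Fin 2 × Fin 3) : Commute P.T (P.N p q) :=
  (P.comm_T_B p).mul_right (P.comm_star (P.comm_T_B q))

theorem star_N (p q : Fin 2 × Fin 3) : star (P.N p q) = P.N q p := by simp [N]

theorem star_A0 : star (P.A 0) = P.X * P.e := by simp [A, P.star_X, P.star_e]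

theorem star_A1 : star (P.A 1) = P.X * P.c := by simp [A, P.star_X]

theorem XA (s : Fin 2) : P.X * P.A s = P.T * P.A s := by
  fin_cases s
  · show P.X * (P.e * P.X) = P.T * (P.e * P.X)
    rw [← mul_assoc, P.Xe.eq, mul_assoc, ← P.TX, ← mul_assoc, ← P.comm_Te.eq, mul_assoc]
  · show P.X * (star P.c * P.X) = P.T * (star P.c * P.X)
    rw [← mul_assoc, P.Xc'.eq, mul_assoc, ← P.TX, ← mul_assoc,
      ← (P.comm_star P.comm_Tc).eq, mul_assoc]

theorem comm_hc' : Commute P.h (star P.c) := by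
  have := congrArg star P.comm_hc.eq
  rw [star_mul, star_mul, P.star_h] at this
  exact this.symm

theorem hA (s : Fin 2) : P.h * P.A s = (1 - P.T) * P.A s := by
  fin_cases s
  · show P.h * (P.e * P.X) = (1 - P.T) * (P.e * P.X)
    rw [← mul_assoc, P.he.eq, mul_assoc, P.hX, ← mul_assoc, sub_mul, one_mul, ← mul_assoc,
      ((Commute.one_right P.e).sub_right P.comm_Te.symm).eq]
    simp [sub_mul, mul_assoc]
  · show P.h * (star P.c * P.X) = (1 - P.T) * (star P.c * P.X)
    rw [← mul_assoc, P.comm_hc'.eq, mul_assoc, P.hX, ← mul_assoc, sub_mul, one_mul, ← mul_assoc,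
      ((Commute.one_right (star P.c)).sub_right (P.comm_star P.comm_Tc).symm).eq]
    simp [sub_mul, mul_assoc]

/-- The common square of the base rows. -/
def Q : D := P.X * (P.e * P.e) * P.X

theorem A_A (a b : Fin 2) : star (P.A a) * P.A b = if a = b then P.Q else 0 := by
  fin_cases a <;> fin_cases b <;> simp [star_A0, star_A1] <;>
    simp [A, Q, mul_assoc, mul_eq P.cc', mul_eq P.ec', mul_eq P.ce]

theorem v'v_A (s : Fin 2) : star P.v * (P.v * P.A s) = P.T * P.A s := by
  rw [← mul_assoc, ← X, P.XA]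

theorem v'A (s : Fin 2) : star P.v * P.A s = 0 := by
  fin_cases s
  · show star P.v * (P.e * P.X) = 0
    rw [← mul_assoc, P.v'e, P.v'X]
  · show star P.v * (star P.c * P.X) = 0
    rw [← mul_assoc, P.v'c', zero_mul]

theorem cA (s : Fin 2) : P.c * P.A s = if s = 1 then (1 - P.T) * P.A 0 else 0 := by
  fin_cases s
  · show P.c * (P.e * P.X) = 0
    rw [← mul_assoc, P.ce, zero_mul]
  · show P.c * (star P.c * P.X) = (1 - P.T) * P.A 0
    rw [← mul_assoc, P.cc', P.ee, mul_assoc]
    exact P.hA 0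

theorem phi_A (a b s : Fin 2) : P.phi a b * P.A s = if s = b then (1 - P.T) * P.A a else 0 := by
  fin_cases a <;> fin_cases b
  · fin_cases s
    · show P.e * (P.e * P.X) = (1 - P.T) * P.A 0
      rw [← mul_assoc, P.ee, mul_assoc]
      exact P.hA 0
    · show P.e * (star P.c * P.X) = 0
      rw [← mul_assoc, P.ec', zero_mul]
  · exact P.cA s
  · fin_cases s
    · show star P.c * (P.e * P.X) = (1 - P.T) * P.A 1
      rw [← mul_assoc, P.c'e, mul_assoc]
      exact P.hA 1
    · show star P.c * (star P.c * P.X) = 0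
      rw [← mul_assoc, ← star_mul, P.cc, star_zero, zero_mul]
  · fin_cases s
    · show P.f * (P.e * P.X) = 0
      rw [← mul_assoc, P.fe, zero_mul]
    · show P.f * (star P.c * P.X) = (1 - P.T) * P.A 1
      rw [← mul_assoc, P.fc', P.c'e, mul_assoc]
      exact P.hA 1

theorem phi_gv (a b i : Fin 2) (y : D) :
    P.phi a b * (P.g i * (P.v * y)) = if i = b then P.g a * (P.v * y) else 0 := by
  have k1 : P.phi a b * (P.g i * P.v) = if i = b then P.g a * P.v else 0 := by
    fin_cases a <;> fin_cases b <;> fin_cases i <;>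
      simp [phi, g, P.eV, P.e'cv, P.cv, P.cc'v, P.c'c'v, P.fv, P.fc'v]
  rw [← mul_assoc (P.g i), ← mul_assoc, k1]
  split_ifs <;> simp [mul_assoc]

theorem star_v_c_A (s : Fin 2) : star P.v * (P.c * P.A s) = 0 := by
  rw [P.cA]
  split_ifs
  · rw [← mul_assoc, ((Commute.one_right (star P.v)).sub_right
      (P.comm_star P.comm_Tv).symm).eq, mul_assoc, P.v'A, mul_zero]
  · exact mul_zero _

theorem gv_A (i s : Fin 2) : star (P.g i * P.v) * P.A s = 0 := by
  fin_cases i
  · simpa [g] using P.v'A s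
  · simpa [g, mul_assoc] using P.star_v_c_A s

theorem A_gv (i s : Fin 2) : star (P.A s) * (P.g i * P.v) = 0 := by
  simpa [mul_assoc] using congrArg star (P.gv_A i s)

theorem gv_gv (i j : Fin 2) : star (P.g i * P.v) * (P.g j * P.v) = if i = j then P.X else 0 := by
  fin_cases i <;> fin_cases j
  · simp [g, X]
  · simpa [g] using P.v'c'v
  · have := congrArg star P.v'c'v
    simpa [g, mul_assoc] using this
  · simpa [g, mul_assoc] using P.u1_star_u1

theorem X_gv (i : Fin 2) : P.X * (P.g i * P.v) = 0 := by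
  fin_cases i
  · simpa [g] using P.Xv
  · simpa [g] using P.Xc'v

theorem comm_RT (x y : D) (hx : Commute P.T x) : x * (P.R * y) = P.R * (x * y) := by
  rw [← mul_assoc, ← (P.comm_R hx).eq, mul_assoc]

theorem B_eq (p : Fin 2 × Fin 3) :
    P.B p = ![P.g p.1 * (P.v * P.A 0), P.g p.1 * (P.v * P.A 1), P.R * P.A p.1] p.2 := by
  obtain ⟨i, j⟩ := p
  fin_cases i <;> fin_cases j <;> rfl

/-- The order zero map acts on the rows by the left factor. -/
theorem phi_B (a b : Fin 2) (q : Fin 2 × Fin 3) :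
    P.phi a b * P.B q = if q.1 = b then P.ev (rho q.2) * P.B (a, q.2) else 0 := by
  obtain ⟨i, j⟩ := q
  rw [B_eq, B_eq]
  fin_cases j <;>
    simp only [rho, Fin.zero_eta, Fin.mk_one, Fin.reduceFinMk, Matrix.cons_val_zero,
      Matrix.cons_val_one, Matrix.cons_val_two, Matrix.tail_cons, Matrix.head_cons, map_one, one_mul,
      P.phi_gv]
  rw [P.comm_RT _ _ (P.comm_T_phi a b), P.phi_A, map_sub, map_one, ev_tI]
  split_ifs
  · exact ((P.comm_RT _ _ ((Commute.one_right _).sub_right (Commute.refl _)))).symm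
  · exact mul_zero _

/-- The matrix units at the endpoint one act on the rows by the right factor. -/
theorem u_Bk (k l m : Fin 3) (s : Fin 2) :
    P.u k * star (P.u l) * P.Bk m s = if l = m then P.ev (chi l * psi k) * P.Bk k s else 0 := by
  have hgv : ∀ i j : Fin 2, star (P.g i * P.v) * (P.g j * (P.v * P.A s)) =
      if i = j then P.T * P.A s else 0 := fun i j => by
    rw [← mul_assoc (P.g j), ← mul_assoc, gv_gv]
    split_ifs
    · exact P.XA s
    · exact zero_mul _
  have hgR : ∀ i : Fin 2, star (P.g i * P.v) * (P.R * P.A s) = 0 := fun i => by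
    rw [P.comm_RT _ _ (P.comm_star ((P.comm_T_g i).mul_right P.comm_Tv)), P.gv_A, mul_zero]
  have hXgv : ∀ i : Fin 2, P.X * (P.g i * (P.v * P.A s)) = 0 := fun i => by
    rw [← mul_assoc (P.g i), ← mul_assoc, P.X_gv, zero_mul]
  have hXR : P.X * (P.R * P.A s) = P.R * (P.T * P.A s) := by
    rw [P.comm_RT _ _ P.comm_TX, P.XA]
  have h1 : star (P.u l) * P.Bk m s = if l = m then P.ev (chi l) * P.A s else 0 := by
    fin_cases l <;> fin_cases m <;>
      simp [u, Bk, chi, ev_tI, P.star_X, -star_mul, hgv, hgR, hXgv, hXR]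
    rw [R, mul_assoc]
  have h2 : P.u k * P.A s = P.ev (psi k) * P.Bk k s := by
    fin_cases k <;> simp [u, Bk, psi, mul_assoc]
    rw [P.XA, ← P.RR, R, mul_assoc]
  rw [mul_assoc, h1]
  split_ifs
  · rw [← mul_assoc, ← (P.comm_ev (P.comm_T_u k) _).eq, mul_assoc, h2, ← mul_assoc, ← map_mul]
  · exact mul_zero _

theorem Bk_orth (k m : Fin 3) (s t : Fin 2) :
    star (P.Bk k s) * P.Bk m t = if k = m ∧ s = t then P.T * P.Q else 0 := by
  have hA : star (P.A s) * (P.T * P.A t) = if s = t then P.T * P.Q else 0 := by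
    rw [← mul_assoc, ← (P.comm_star (P.comm_T_A s)).eq, mul_assoc, A_A]
    split_ifs <;> simp
  have hvv : ∀ i j : Fin 2, star (P.g i * (P.v * P.A s)) * (P.g j * (P.v * P.A t)) =
      if i = j ∧ s = t then P.T * P.Q else 0 := fun i j => by
    rw [← mul_assoc (P.g i), ← mul_assoc (P.g j), star_mul (P.g i * P.v), mul_assoc (star (P.A s)),
      ← mul_assoc (star (P.g i * P.v)), gv_gv]
    by_cases h : i = j
    · rw [if_pos h, P.XA, hA]; simp [h]
    · simp [h]
  have hvR : ∀ i : Fin 2, star (P.g i * (P.v * P.A s)) * (P.R * P.A t) = 0 := fun i => by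
    rw [← mul_assoc (P.g i), star_mul (P.g i * P.v), mul_assoc,
      P.comm_RT _ _ (P.comm_star ((P.comm_T_g i).mul_right P.comm_Tv)), P.gv_A, mul_zero, mul_zero]
  have hRv : ∀ j : Fin 2, star (P.R * P.A s) * (P.g j * (P.v * P.A t)) = 0 := fun j => by
    rw [star_mul, P.star_R, mul_assoc, ← mul_assoc (P.g j),
      ← P.comm_RT _ _ ((P.comm_T_g j).mul_right P.comm_Tv), ← mul_assoc, P.A_gv, zero_mul]
  have hRR : star (P.R * P.A s) * (P.R * P.A t) = if s = t then P.T * P.Q else 0 := by
    rw [star_mul, P.star_R, mul_assoc, ← mul_assoc P.R, P.RR, hA]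
  fin_cases k <;> fin_cases m <;> simp [Bk, -star_mul, hvv, hvR, hRv, hRR]

theorem A_Q (s : Fin 2) : P.A s * P.Q = P.T * (P.T * ((1 - P.T) * ((1 - P.T) * P.A s))) := by
  have e : ∀ x : D, Commute P.T x → (1 - P.T) * x = x * (1 - P.T) := fun x hx =>
    ((Commute.one_left x).sub_left hx).eq
  have h1 : P.A s * P.Q = P.X * (P.X * (P.h * (P.h * P.A s))) := by
    fin_cases s
    · show P.e * P.X * (P.X * (P.e * P.e) * P.X) = P.X * (P.X * (P.h * (P.h * (P.e * P.X))))
      rw [← mul_assoc P.h P.e, ← P.ee, ← mul_assoc P.h (P.e * P.e), ← mul_assoc P.h P.e, ← P.ee]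
      simp only [← mul_assoc]
      rw [← P.Xe.eq, mul_assoc P.X P.e P.X, ← P.Xe.eq]
      simp only [← mul_assoc]
    · show star P.c * P.X * (P.X * (P.e * P.e) * P.X) =
        P.X * (P.X * (P.h * (P.h * (star P.c * P.X))))
      rw [← mul_assoc P.h (star P.c), ← P.c'e, ← mul_assoc P.h (star P.c * P.e),
        ← mul_assoc P.h (star P.c), ← P.c'e]
      simp only [← mul_assoc]
      rw [← P.Xc'.eq, mul_assoc P.X (star P.c) P.X, ← P.Xc'.eq]
      simp only [← mul_assoc]
  have hh : Commute P.h (1 - P.T) := by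
    refine (Commute.one_right _).sub_right ?_
    rw [Rel.h]
    exact (P.comm_Te.add_right P.comm_Tf).symm
  have sw : ∀ {a b : D}, Commute a b → ∀ y : D, a * (b * y) = b * (a * y) := fun hab y => by
    rw [← mul_assoc, hab.eq, mul_assoc]
  rw [h1]
  simp only [P.hA, sw hh, sw ((Commute.one_right P.X).sub_right P.comm_TX.symm), P.XA,
    sw P.comm_TX.symm, sw ((Commute.one_left P.T).sub_left (Commute.refl P.T))]

theorem ev_wI : P.ev wI = P.T * P.T * P.T * ((1 - P.T) * (1 - P.T)) := by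
  simp [wI, map_mul, map_sub, ev_tI]

theorem Bk_Q (k : Fin 3) (s : Fin 2) : P.Bk k s * (P.T * P.Q) = P.ev wI * P.Bk k s := by
  have hA : P.A s * (P.T * P.Q) = P.ev wI * P.A s := by
    rw [← mul_assoc, ← (P.comm_T_A s).eq, mul_assoc, P.A_Q, ev_wI]
    simp only [mul_assoc]
  have hw : ∀ x, Commute P.T x → x * (P.A s * (P.T * P.Q)) = P.ev wI * (x * P.A s) := fun x hx => by
    rw [hA, ← mul_assoc, ← (P.comm_ev hx _).eq, mul_assoc]
  fin_cases k <;> simp [Bk, mul_assoc]
  · rw [← mul_assoc, hw _ ((P.comm_T_g 0).mul_right P.comm_Tv)]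
    simp only [mul_assoc]
  · rw [← mul_assoc, hw _ ((P.comm_T_g 1).mul_right P.comm_Tv)]
    simp only [mul_assoc]
  · exact hw _ P.comm_T_R

theorem N_mul (p q r s : Fin 2 × Fin 3) :
    P.N p q * P.N r s = if q = r then P.ev wI * P.N p s else 0 := by
  rw [N, N, mul_assoc, ← mul_assoc (star (P.B q)), show star (P.B q) * P.B r =
      if q = r then P.T * P.Q else 0 by
    rw [B, B, Bk_orth]
    refine if_congr ⟨fun h => ?_, fun h => by simp [h]⟩ rfl rfl
    rw [← perm_perm q, ← perm_perm r]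
    congr 1
    exact Prod.ext h.2 h.1]
  split_ifs
  · rw [← mul_assoc (P.B p), show P.B p * (P.T * P.Q) = P.ev wI * P.B p from P.Bk_Q _ _, N,
      mul_assoc]
  · simp

theorem sum_A : ∑ a, P.A a * star (P.A a) = (1 - P.T) * ((1 - P.T) * (P.T * P.X)) := by
  have hXX : Commute (P.X * P.X) (star P.c) := P.Xc'.mul_left P.Xc'
  have hXe : Commute (P.X * P.X) P.e := P.Xe.mul_left P.Xe
  have h0 : P.A 0 * star (P.A 0) = P.X * P.X * (P.e * P.e) := by
    rw [← mul_assoc, hXe.eq, star_A0]
    simp [A, mul_assoc]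
  have h1 : P.A 1 * star (P.A 1) = P.X * P.X * (P.f * P.f) := by
    rw [← P.c'c, ← mul_assoc, hXX.eq, star_A1]
    simp [A, mul_assoc]
  have hXh : Commute P.X P.h := by rw [Rel.h]; exact P.Xe.add_right P.Xf
  have hXT : Commute P.X (1 - P.T) := (Commute.one_right P.X).sub_right P.comm_TX.symm
  rw [Fin.sum_univ_two, h0, h1, ← mul_add, ← P.hh, mul_assoc, ← mul_assoc P.X P.h, hXh.eq,
    mul_assoc P.h, hXh.eq, ← mul_assoc P.X P.h, hXh.eq, P.hX]
  simp only [mul_assoc]
  rw [P.TX, ← mul_assoc P.X (1 - P.T), hXT.eq, mul_assoc]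

theorem sum_N : ∑ p, P.N p p = P.ev wI := by
  set M : D := (1 - P.T) * ((1 - P.T) * (P.T * P.X))
  have e : ∑ p, P.N p p = ∑ q : Fin 2 × Fin 3, P.Bk q.2 q.1 * star (P.Bk q.2 q.1) :=
    Fintype.sum_equiv (Function.Involutive.toPerm perm perm_perm) _ _ fun p => rfl
  rw [e, Fintype.sum_prod_type, Finset.sum_comm, Fin.sum_univ_three]
  have hk : ∀ (k : Fin 3) (y : D), (∀ s, P.Bk k s = y * P.A s) →
      ∑ s, P.Bk k s * star (P.Bk k s) = y * (M * star y) := fun k y hy => by
    rw [show M = _ from P.sum_A.symm, ← mul_assoc, Finset.mul_sum, Finset.sum_mul]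
    exact Finset.sum_congr rfl fun s _ => by simp only [hy, star_mul, mul_assoc]
  rw [hk 0 (P.g 0 * P.v) (fun s => by simp [Bk, mul_assoc]),
    hk 1 (P.g 1 * P.v) (fun s => by simp [Bk, mul_assoc]), hk 2 P.R (fun s => rfl), P.star_R]
  have sw : ∀ {a b : D}, Commute a b → ∀ y : D, a * (b * y) = b * (a * y) := fun hab y => by
    rw [← mul_assoc, hab.eq, mul_assoc]
  have hgv : ∀ i : Fin 2, P.g i * P.v * (M * star (P.g i * P.v)) =
      (1 - P.T) * ((1 - P.T) * (P.T * (P.T * (P.g i * P.v * star (P.g i * P.v))))) := fun i => by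
    have hc : Commute P.T (P.g i * P.v) := (P.comm_T_g i).mul_right P.comm_Tv
    have e : P.g i * P.v * P.X = P.T * (P.g i * P.v) := by
      rw [mul_assoc, ← P.Tv, ← mul_assoc, ← (P.comm_T_g i).eq, mul_assoc]
    simp only [M, mul_assoc]
    simp only [← mul_assoc (P.g i) P.v]
    rw [sw ((Commute.one_right _).sub_right hc.symm), sw ((Commute.one_right _).sub_right hc.symm),
      sw hc.symm, ← mul_assoc (P.g i * P.v) P.X, e, mul_assoc P.T]
  have hR2 : P.R * (M * P.R) = (1 - P.T) * ((1 - P.T) * (P.T * (P.T * P.X))) := by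
    have hcT : Commute P.R P.T := P.comm_T_R.symm
    simp only [M, mul_assoc]
    rw [sw ((Commute.one_right _).sub_right hcT), sw ((Commute.one_right _).sub_right hcT), sw hcT,
      ← (P.comm_R P.comm_TX).eq, ← mul_assoc P.R P.R, P.RR]
  rw [hgv, hgv, hR2, ← mul_add, ← mul_add, ← mul_add, ← mul_add, ← mul_add, ← mul_add, ← mul_add,
    ← mul_add]
  have eT : P.g 0 * P.v * star (P.g 0 * P.v) + P.g 1 * P.v * star (P.g 1 * P.v) + P.X = P.T := by
    simp only [g, Matrix.cons_val_zero, Matrix.cons_val_one, one_mul, T]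
    abel
  rw [eT, ev_wI]
  simp only [mul_assoc, sw ((Commute.one_left P.T).sub_left (Commute.refl P.T))]
  rw [((Commute.one_left P.T).sub_left (Commute.refl P.T)).eq]
  simp only [sw ((Commute.one_left P.T).sub_left (Commute.refl P.T))]

end Rel

end Vale.Agent.P101.Bridge
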